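import Crest.Agent.X212.Ord99.Bs

/-!
# Row 212, layer G (helper99): paths of characters, gauge invariance, tests

* `Fol`, `Pc.path`, `Pc.gauge` (windows `Ws`, `Wt`);
* `Tst` integer relations between rods, `pe` their characters, `pw` their weights, `Tst.bs_eq`, `Tst.tok`, `Tst.par`.
-/

set_option autoImplicit false
set_option linter.unusedSectionVars false
noncomputable section

namespace Crest.Agent.X212.Ord99

open Crest.Agent.X212.Rod53 hiding rho
open Crest.Agent.X212.Wd38 Crest.Agent.X212.Nm96 Finset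

variable {Γ : Nm} {w : Shp Γ} {B : Finset Bs} {η : Bs → Bool} {s t c j L R p q : ℤ} {x g : RW} {a : Bs}
  {E : ℤ → ℝ × ℝ}

/-- `g` follows the characters `E` on the envelope -/
structure Fol (w : Shp Γ) (B : Finset Bs) (η : Bs → Bool) (E : ℤ → ℝ × ℝ) (g : RW) : Prop where
  l : ∀ c, En w B η c → g.2 (c - 1) = ev (E c) (w.lf c)
  r : ∀ c, En w B η c → g.1 c = ev (E c) (w.rt c)
  arc : ∀ a, No B η a → ∀ c, a.lo < c → c ≤ a.hi → E c = E a.hi

/-- junctions are rational homology spheres -/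
def JQ (Γ : Nm) : Prop := ∀ J, (Γ.src J).2.2 ≠ 0 ∧ (Γ.tgt J).2.2 ≠ 0

/-- a rational homology sphere slice away from the walls -/
def Cu (w : Shp Γ) (B : Finset Bs) (s : ℤ) : Prop :=
  w.l ≤ s ∧ s < w.r ∧ (w.s s).r.2.2 ≠ 0 ∧ ∀ a ∈ B, a.hi < s ∨ s < a.lo

theorem th_slot (hJ : JQ Γ) (hx : TR w x) (h1 : w.l < j) (h2 : j < w.r) {e : ℝ × ℝ}
    (he : (∃ τ, w.s j = .rod τ) ∨ e.1 = 0) : th e (w.s j).r.2 (x.2 j) = th e (w.rt j) (x.1 j) := by
  rw [Shp.rt]
  cases k : w.s j with
  | rod τ => rw [hx.rod j τ h1 h2 k]; rfl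
  | jn J =>
    have he := he.resolve_left (by simp [k])
    exact (th_zero he (hJ J).2 _).trans (th_zero he (hJ J).1 _).symm

namespace Pc
variable (P : Pc w B η) (hE : ∀ c, En w B η c ↔ L < c ∧ c ≤ R) (hLR : L < R)
include P hE hLR

omit hLR in
theorem path (hx : TR w x) (F : Fol w B η E g) (hs : ∀ a ∈ B, a.arc → s ≤ a.lo ∨ a.hi ≤ s)
    (ht : ∀ a ∈ B, a.arc → t ≤ a.lo ∨ a.hi ≤ t) : bs w B η s t x g =
    ∑ c ∈ Ioc (max s L) (min t R), (th (E c) (w.lf c) (x.2 (c - 1)) - th (E c) (w.rt c) (x.1 c)) -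
    ∑ a ∈ B with (a.arc ∧ s ≤ a.lo ∧ a.lo < t ∧ Adj B η a) ∧ ¬η a = true, ar w x g a := by
  have no : ∀ {a}, a ∈ {a ∈ B | (a.arc ∧ s ≤ a.lo ∧ a.lo < t ∧ Adj B η a) ∧ η a = true} → No B η a := fun h =>
    let ⟨h1, h2, h3⟩ := mem_filter.1 h; ⟨h1, h2.1, h3, h2.2.2.2⟩
  have hU : Ioc (max s L) (min t R) = {c ∈ Ioc w.l w.r | s < c ∧ c ≤ t ∧ InV B η c} ∪
      {a ∈ B | (a.arc ∧ s ≤ a.lo ∧ a.lo < t ∧ Adj B η a) ∧ η a = true}.biUnion fun a => Ioc a.lo a.hi := by
    ext c
    simp only [mem_Ioc, mem_union, mem_filter, mem_biUnion, max_lt_iff, le_min_iff]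
    constructor
    · rintro ⟨⟨h1, h2⟩, h3, h4⟩
      have e := (hE c).2 ⟨h2, h4⟩
      by_cases i : InV B η c
      · exact .inl ⟨⟨e.1, e.2.1⟩, h1, h3, i⟩
      · obtain ⟨a, n, k⟩ := P.no_of e i
        have := hs a n.1 n.2.1
        exact .inr ⟨a, ⟨n.1, ⟨n.2.1, by omega, by omega, n.2.2.2⟩, n.2.2.1⟩, k⟩
    · rintro (⟨h, h1, h2, i⟩ | ⟨a, ⟨h, k, e⟩, u⟩)
      · have := (hE c).1 (en_of h.1 h.2 i)
        omega
      · have := (hE c).1 (P.en_no ⟨h, k.1, e, k.2.2.2⟩ u.1 u.2).1
        have := ht a h k.1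
        omega
  rw [hU, sum_union, sum_biUnion, bs, ← sum_filter_add_sum_filter_not _ fun a => η a = true, filter_filter,
    filter_filter, add_sub_assoc, sub_eq_add_neg, ← sum_neg_distrib]
  · congr 1
    · exact sum_congr rfl fun c h => by
        simp only [mem_filter, mem_Ioc] at h
        have e := en_of h.1.1 h.1.2 h.2.2.2
        exact vx_ev P.hw hx h.1.1 h.1.2 (F.l c e) (F.r c e)
    congr 1
    · refine sum_congr rfl fun a h => ?_
      have n := no h
      obtain ⟨r, u⟩ := P.arc n.1 n.2.1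
      have := r.lt
      have e1 := F.l _ (P.en_no n (c := a.lo + 1) (by omega) (by omega)).1
      rw [F.arc a n _ (by omega) (by omega), Shp.lf, add_sub_cancel_right] at e1
      rw [if_pos n.2.2.1, one_mul, ar, e1, F.r _ (P.en_no n this le_rfl).1, Shp.rt, lr_ev u, ← hx.tel r]
      exact sum_congr rfl fun c k => by rw [F.arc a n c (mem_Ioc.1 k).1 (mem_Ioc.1 k).2]
    · exact sum_congr rfl fun a h => by rw [if_neg (mem_filter.1 h).2.2, neg_one_mul]
  · intro a h b h' ne
    have := P.no_far (no h) (no h') ne.symm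
    exact disjoint_left.2 fun c u v => by simp only [mem_Ioc] at u v; omega
  · exact disjoint_left.2 fun c u v => by
      obtain ⟨a, h, k⟩ := mem_biUnion.1 v
      exact (P.en_no (no h) (mem_Ioc.1 k).1 (mem_Ioc.1 k).2).2 (mem_filter.1 u).2.2.2

/-- **gauge invariance** on windows -/
theorem gauge (hJ : JQ Γ) (hx : TR w x) (F : Fol w B η E g)
    (hr : ∀ j τ, w.l < j → j < w.r → w.s j = .rod τ → E (j + 1) = E j) (ho : Out B η → ∀ c, (E c).1 = 0)
    (hs : s = w.l - 1 ∨ Cu w B s) (ht : (t = w.r + 1 ∧ ¬InV B η (w.r + 1)) ∨ Cu w B t) :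
    bs w B η s t x g = 0 := by
  have b := bdLR hE hLR
  have hs' : ∀ a ∈ B, s < a.lo ∨ a.hi < s := fun a h => by
    have := P.bd h
    exact hs.elim (fun _ => by omega) fun k => (k.2.2.2 a h).symm
  have ht' : ∀ a ∈ B, t < a.lo ∨ a.hi < t := fun a h => by
    have := P.bd h
    exact ht.elim (fun _ => by omega) fun k => (k.2.2.2 a h).symm
  rw [P.path hE hx F (fun a h _ => by have := hs' a h; omega) fun a h _ => by have := ht' a h; omega]
  by_cases o : Out B η
  · rw [sum_eq_zero (s := filter _ _) fun a h => absurd (o a (mem_filter.1 h).1 (mem_filter.1 h).2.1.1)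
      (mem_filter.1 h).2.2, sub_zero]
    by_cases k : max s L < min t R
    swap
    · rw [Ioc_eq_empty k, sum_empty]
    have h1 : (w.s (max s L)).r.2.2 ≠ 0 := by
      rcases le_total s L with u | u
      · rw [max_eq_right u]; exact P.pL hE hLR o
      · rw [max_eq_left u]; exact (hs.resolve_left (by omega)).2.2.1
    have h2 : min t R < w.r ∧ (w.s (min t R)).r.2.2 ≠ 0 := by
      rcases le_total t R with u | u
      · rw [min_eq_left u]; exact let k := ht.resolve_left (by omega); ⟨k.2.1, k.2.2.1⟩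
      · rw [min_eq_right u]; exact P.pR hE hLR o (ht.symm.imp (fun k => u.trans_lt k.2.1) And.right)
    rw [tel (A := fun c => th (E c) (w.lf c) (x.2 (c - 1))) k fun j u v => ?_, Shp.lf, add_sub_cancel_right,
      th_zero (ho o _) h1, ← th_slot hJ hx (by omega) h2.1 (.inr (ho o _)), th_zero (ho o _) h2.2, sub_self]
    rw [← th_slot hJ hx (by omega) (by omega) (.inr (ho o _)), Shp.lf, add_sub_cancel_right]
    cases e : w.s j with
    | rod τ => rw [hr j τ (by omega) (by omega) e]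
    | jn J => exact (th_zero (ho o _) (hJ J).2 _).trans (th_zero (ho o _) (hJ J).2 _).symm
  obtain ⟨a, k, e1, e2, h, u⟩ := P.exists_inn hE hLR o
  have := hs' a h; have := ht' a h
  by_cases v : s < L ∧ R < t
  · obtain ⟨r, un⟩ := P.arc h k
    have ec : ∀ c, L < c → c ≤ R → E c = E (L + 1) := fun c h1 h2 => by
      induction c, h1 using Int.leInduction with
      | base => rfl
      | succ c h1 ih =>
        obtain ⟨τ, e⟩ := r.fr c (by omega) (by omega)
        rw [hr c τ (by omega) (by omega) e, ih (by omega)]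
    have g1 := F.l _ ((hE (L + 1)).2 ⟨by omega, by omega⟩)
    have g2 := F.r _ ((hE R).2 ⟨hLR, le_rfl⟩)
    rw [Shp.lf, add_sub_cancel_right] at g1
    rw [ec R hLR le_rfl, Shp.rt] at g2
    rw [e1, e2] at r un
    rw [show filter _ B = {a} from eq_singleton_iff_unique_mem.2 ⟨mem_filter.2 ⟨h, ⟨k, by omega, by omega,
      ((u a).2 rfl).2.2.2⟩, by simp [((u a).2 rfl).2.2.1]⟩, fun b hb => (u b).1 ⟨(mem_filter.1 hb).1,
      (mem_filter.1 hb).2.1.1, by simpa using (mem_filter.1 hb).2.2, (mem_filter.1 hb).2.1.2.2.2⟩⟩,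
      sum_singleton, max_eq_right v.1.le, min_eq_right v.2.le, ar, e1, e2, g1, g2, lr_ev un, ← hx.tel r, sub_eq_zero]
    exact sum_congr rfl fun c k => by rw [ec c (mem_Ioc.1 k).1 (mem_Ioc.1 k).2]
  · rw [Ioc_eq_empty (by omega), sum_empty, sum_eq_zero fun b hb => ?_, sub_zero]
    obtain ⟨x1, x2, x3⟩ := mem_filter.1 hb
    obtain rfl := (u b).1 ⟨x1, x2.1, by simpa using x3, x2.2.2.2⟩
    omega

end Pc

/-! ### tests -/

/-- the value of an integral character -/
def zv (e v : Z2) : ℤ := e.1 * v.1 + e.2 * v.2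

/-- the character that kills `v` -/
def pp (v : Z2) : Z2 := (v.2, -v.1)

/-- real characters of integral ones -/
def rc (e : Z2) : ℝ × ℝ := (e.1, e.2)

theorem ev_rc (e v : Z2) : ev (rc e) v = zv e v := by simp [ev, rc, zv]

/-- the characters of a relation -/
def pe (w : Shp Γ) (p q : ℤ) (d : ℤ → ℤ) (c : ℤ) : Z2 := -∑ k ∈ Icc p q with c ≤ k, d k • pp (w.bw p q k)

/-- the weights of a path of characters -/
def pw (w : Shp Γ) (e : ℤ → Z2) : Wt := ⟨fun j => zv (e j) (w.rt j), fun j => zv (e (j + 1)) (w.s j).r.2, 0, 0⟩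

/-- the orders along the rods of a range -/
def yb (y : RW) (p q j : ℤ) : ℝ := if j ≤ p then y.2 p else y.1 (min j q)

/-- relations between the rods of a junction free range of the piece -/
structure Tst (w : Shp Γ) (B : Finset Bs) (η : Bs → Bool) (p q : ℤ) (d : ℤ → ℤ) : Prop where
  rg : w.Rg p q
  en : ∀ c, p < c → c ≤ q → En w B η c
  ins : ∀ a, No B η a → ∀ j, a.lo < j → j < a.hi → d j = 0
  mer : ∑ k ∈ Icc p q, d k * (w.bw p q k).2 = 0
  lon : ¬Out B η → ∑ k ∈ Icc p q, d k * (w.bw p q k).1 = 0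

variable {d : ℤ → ℤ}

theorem pe_succ (j : ℤ) : pe w p q d (j + 1) =
    pe w p q d j + if j ∈ Icc p q then d j • pp (w.bw p q j) else 0 := by
  rw [pe, pe, eq_neg_add_iff_add_eq, sum_filter, sum_filter, ← sub_eq_add_neg, ← sum_sub_distrib,
    ← sum_ite_eq (Icc p q) j fun k => d k • pp (w.bw p q k)]
  exact sum_congr rfl fun k _ => by split_ifs <;> first | omega | simp_all

theorem pe_gt (h : q < c) : pe w p q d c = 0 := by
  rw [pe, sum_eq_zero fun k x => by simp only [mem_filter, mem_Icc] at x; omega, neg_zero]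

theorem pe_le (h : c ≤ p) : pe w p q d c =
    (-∑ k ∈ Icc p q, d k * (w.bw p q k).2, ∑ k ∈ Icc p q, d k * (w.bw p q k).1) := by
  rw [pe, filter_true_of_mem fun k x => h.trans (mem_Icc.1 x).1]
  ext <;> simp [Prod.fst_sum, Prod.snd_sum, pp]

theorem th_pp {v : Z2} (h : Pr v) (e : Z2) (m : ℤ) (y : ℝ) : th (rc (e + m • pp v)) v y = th (rc e) v y - m * y := by
  obtain ⟨u, h⟩ := h
  simp only [th, rc, pp, Prod.fst_add, Prod.snd_add, Prod.smul_mk, smul_eq_mul]
  push_cast
  split_ifs with k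
  · have := h.sq
    rw [dt, k, zero_mul, sub_zero, mul_mul_mul_comm] at this
    have : (v.1 : ℝ) * v.1 = 1 := by exact_mod_cast Int.eq_one_of_mul_eq_one_right (mul_self_nonneg _) this
    simp only [k, Int.cast_zero, div_zero]
    linear_combination -(m * y) * this
  · have : (v.2 : ℝ) ≠ 0 := by exact_mod_cast k
    field_simp
    ring

theorem zv_pp (e v : Z2) (m : ℤ) : zv (e + m • pp v) v = zv e v := by simp [zv, pp]; ring

theorem TR.yb_r (hx : TR w x) (h : w.Rg p q) (h1 : p ≤ j) (h2 : j < q) : yb x p q j = x.2 j := by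
  rcases h1.eq_or_lt with rfl | k
  · exact if_pos le_rfl
  · rw [yb, if_neg k.not_ge, min_eq_left h2.le, ← (hx.lr h k h2).2, add_sub_cancel_right]

theorem yb_l (h1 : p < j) (h2 : j ≤ q) : yb x p q j = x.1 j := by rw [yb, if_neg h1.not_ge, min_eq_left h2]

theorem bw_l (h1 : p < j) (h2 : j ≤ q) : w.bw p q j = w.rt j := by
  rw [Shp.bw, if_neg h1.not_ge, min_eq_left h2, Shp.rt]

theorem bw_r (h : w.Rg p q) (h1 : p ≤ j) (h2 : j < q) : w.bw p q j = (w.s j).r.2 := by
  rcases h1.eq_or_lt with rfl | k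
  · exact if_pos le_rfl
  · rw [bw_l k h2.le, ← (tr_zero.lr h k h2).1, Shp.lf, add_sub_cancel_right]

section
variable (r : w.Rg p q)
include r

theorem pw_r (h : j < q) : (pw w (pe w p q d)).nr j = zv (pe w p q d j) (w.s j).r.2 := by
  simp only [pw, pe_succ]
  split_ifs with k
  · rw [bw_r r (mem_Icc.1 k).1 h, zv_pp]
  · rw [add_zero]

theorem pw_l (h : p < j) : (pw w (pe w p q d)).nl j = zv (pe w p q d (j + 1)) (w.rt j) := by
  simp only [pw, pe_succ]
  split_ifs with k
  · rw [bw_l h (mem_Icc.1 k).2, zv_pp]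
  · rw [add_zero]

theorem tok_pw : TOK w (pw w (pe w p q d)) := by
  refine ⟨fun j τ _ _ e => ?_, fun j _ _ e => ?_, fun j _ _ e => ?_⟩
  · rcases lt_or_ge j q with k | k
    · rw [pw_r r k]; simp only [pw, Shp.rt, e]; rfl
    · rw [pw_l r (r.lt.trans_le k)]; simp only [pw, Shp.rt, e]; rfl
  · simp only [pw, sub_add_cancel, ← e, Shp.lf]
  · simp only [pw, sub_add_cancel, show (w.s (j - 1)).r.2 = _ from e, zv, Prod.fst_neg, Prod.snd_neg]
    ring

theorem yb_pw (h1 : p ≤ j) (h2 : j ≤ q) : yb (co (pw w (pe w p q d))) p q j =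
    (-∑ k ∈ Icc p q with j ≤ k, d k * dt (w.bw p q j) (w.bw p q k) : ℤ) := by
  have : yb (co (pw w (pe w p q d))) p q j = zv (pe w p q d j) (w.bw p q j) := by
    rcases h1.eq_or_lt with rfl | k
    · rw [yb, if_pos le_rfl, bw_r r le_rfl r.lt, ← pw_r r r.lt]; rfl
    · rw [yb_l k h2, bw_l k h2]; rfl
  rw [this, pe, zv]
  simp only [Prod.fst_neg, Prod.snd_neg, Prod.fst_sum, Prod.snd_sum, neg_mul, sum_mul, ← neg_add, ← sum_add_distrib]
  congr 2
  exact sum_congr rfl fun k _ => by simp only [pp, dt, Prod.smul_mk, smul_eq_mul]; ring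

end

theorem even_rel (v : ℤ → Z2) (d : ℤ → ℤ) (h : p ≤ q + 1) :
    Even (∑ j ∈ Icc p q, d j * ((v j).1 * (v j).2 + ∑ k ∈ Icc p q with j ≤ k, d k * dt (v j) (v k)) -
      (∑ j ∈ Icc p q, d j * (v j).1) * ∑ j ∈ Icc p q, d j * (v j).2) := by
  obtain ⟨n, rfl⟩ : ∃ n : ℕ, q = p - 1 + n := ⟨(q + 1 - p).toNat, by omega⟩
  induction n with
  | zero => simp
  | succ n ih =>
    have e : Icc p (p - 1 + (n + 1 : ℕ)) = insert (p + n) (Icc p (p - 1 + n)) := by ext; simp; omega
    have m : p + n ∉ Icc p (p - 1 + n) := by simp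
    have f : ∀ j ∈ Icc p (p - 1 + n), ∑ k ∈ insert (p + n) (Icc p (p - 1 + n)) with j ≤ k, d k * dt (v j) (v k) =
        d (p + n) * dt (v j) (v (p + n)) + ∑ k ∈ Icc p (p - 1 + n) with j ≤ k, d k * dt (v j) (v k) := fun j h => by
      rw [filter_insert, if_pos (by simp at h; omega), sum_insert fun x => m (mem_filter.1 x).1]
    have f' : ∑ k ∈ insert (p + n) (Icc p (p - 1 + n)) with p + n ≤ k, d k * dt (v (p + n)) (v k) = 0 :=
      sum_eq_zero fun k x => by
        obtain rfl : k = p + n := by simp at x; omega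
        rw [dt_self, mul_zero]
    rw [e, sum_insert m, sum_insert m, sum_insert m, f', sum_congr rfl fun j h => by rw [f j h]]
    obtain ⟨k, hk⟩ := ih (by omega)
    obtain ⟨k', hk'⟩ := Int.even_mul_pred_self (d (p + n))
    refine ⟨k - k' * ((v (p + n)).1 * (v (p + n)).2) -
      d (p + n) * (v (p + n)).1 * ∑ j ∈ Icc p (p - 1 + n), d j * (v j).2, ?_⟩
    simp only [dt, mul_add, mul_sub, sum_add_distrib, sum_sub_distrib] at hk ⊢
    have a1 : ∑ j ∈ Icc p (p - 1 + n), d j * (d (p + n) * ((v j).1 * (v (p + n)).2)) =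
        (∑ j ∈ Icc p (p - 1 + n), d j * (v j).1) * (d (p + n) * (v (p + n)).2) := by
      rw [sum_mul]; exact sum_congr rfl fun _ _ => by ring
    have a2 : ∑ j ∈ Icc p (p - 1 + n), d j * (d (p + n) * ((v j).2 * (v (p + n)).1)) =
        d (p + n) * (v (p + n)).1 * ∑ j ∈ Icc p (p - 1 + n), d j * (v j).2 := by
      rw [mul_sum]; exact sum_congr rfl fun _ _ => by ring
    rw [a1, a2]
    linear_combination hk - (v (p + n)).1 * (v (p + n)).2 * hk'

namespace Tst
variable (T : Tst w B η p q d)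
include T

theorem fol : Fol w B η (fun c => rc (pe w p q d c)) (co (pw w (pe w p q d))) where
  l c _ := by simp only [co, pw, sub_add_cancel, ev_rc, Shp.lf]
  r c _ := (ev_rc _ _).symm
  arc a n c h1 h2 := by
    induction c, h2 using Int.leInductionDown with
    | base => rfl
    | pred k hk ih =>
      have := pe_succ (w := w) (p := p) (q := q) (d := d) (k - 1)
      rw [T.ins a n _ h1 (by omega), zero_smul, ite_self, add_zero, sub_add_cancel] at this
      rw [← this, ih (by omega)]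

/-- **the pairing with a test** -/
theorem bs_eq (P : Pc w B η) (hJ : JQ Γ) (hx : TR w x) :
    bs w B η (w.l - 1) (w.r + 1) x (co (pw w (pe w p q d))) = -∑ k ∈ Icc p q, d k * yb x p q k := by
  obtain ⟨L, R, hLR, hE⟩ := P.exists_LR
  have b := Pc.bdLR hE hLR
  have r := T.rg
  have := r.lt
  have := (hE _).1 (T.en (p + 1) (by omega) (by omega))
  have := (hE _).1 (T.en q (by omega) le_rfl)
  have e0 : ∀ c ≤ p, (rc (pe w p q d c)).1 = 0 := fun c h => by simp [rc, pe_le h, T.mer]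
  have e1 : ¬Out B η → ∀ c ≤ p, pe w p q d c = 0 := fun o c h => by rw [pe_le h, T.mer, T.lon o]; rfl
  set δ : ℤ → ℝ := fun j => if j ∈ Icc p q then d j * yb x p q j else 0 with hδ
  have up : ∀ j, L ≤ j → j < q → th (rc (pe w p q d (j + 1))) (w.lf (j + 1)) (x.2 (j + 1 - 1)) =
      th (rc (pe w p q d j)) (w.s j).r.2 (x.2 j) - δ j := fun j h1 h2 => by
    rw [Shp.lf, add_sub_cancel_right, pe_succ, hδ]
    beta_reduce
    split_ifs with k
    · rw [bw_r r (mem_Icc.1 k).1 h2, th_pp (P.hw.pr j (by omega) (by omega)).2, hx.yb_r r (mem_Icc.1 k).1 h2]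
    · rw [add_zero, sub_zero]
  have dn : ∀ j, q ≤ j → j ≤ R → th (rc (pe w p q d j)) (w.rt j) (x.1 j) = δ j := fun j h1 h2 => by
    have := th_pp (P.hw.pr j (by omega) (by omega)).1 (pe w p q d j) (if j ∈ Icc p q then d j else 0) (x.1 j)
    rw [show _ + _ = pe w p q d (j + 1) by
      rw [pe_succ]; split_ifs with k
      exacts [by rw [bw_l (by omega) (mem_Icc.1 k).2, Shp.rt], by rw [zero_smul]], pe_gt (by omega)] at this
    rw [Shp.rt, ← sub_eq_zero, hδ]
    beta_reduce
    split_ifs at this ⊢ with k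
    · rw [yb_l (by omega) (mem_Icc.1 k).2, ← this]; simp [th, rc]
    · simpa [th, rc] using this.symm
  rw [P.path hE hx T.fol (fun a h _ => by have := P.bd h; omega) (fun a h _ => by have := P.bd h; omega),
    max_eq_right (by omega), min_eq_right (by omega), sum_eq_zero (s := filter _ _) fun a h => ?_, sub_zero]
  · have := tel (A := fun c => th (rc (pe w p q d c)) (w.lf c) (x.2 (c - 1)))
      (A' := fun c => th (rc (pe w p q d c)) (w.rt c) (x.1 c) - δ c) hLR fun j h1 h2 => by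
        rcases lt_or_ge j q with k | k
        · rw [up j h1.le k, th_slot hJ hx (by omega) (by omega)
            ((lt_or_ge p j).imp (fun u => r.fr j u k) (e0 j))]
        · rw [dn j k h2.le, pe_gt (by omega)]; simp [th, rc]
    rw [up L le_rfl (by omega), dn R (by omega) le_rfl, sub_self, sub_zero, show th _ _ _ = 0 from
      (em (Out B η)).elim (fun o => th_zero (e0 L (by omega)) (P.pL hE hLR o) _) fun o => by
        rw [e1 o L (by omega)]; simp [th, rc]] at this
    simp only [← sub_add, sum_add_distrib] at this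
    rw [eq_sub_of_add_eq this, sub_sub, zero_sub, ← sum_insert (by simp), hδ, sum_ite_mem,
      inter_eq_right.2 fun j h => by simp only [mem_Icc, mem_insert, mem_Ioc] at h ⊢; omega]
  · obtain ⟨x1, x2, x3⟩ := mem_filter.1 h
    have o : ¬Out B η := fun o => x3 (o a x1 x2.1)
    obtain ⟨u, v⟩ := P.inn hE hLR x1 x2.1 (by simpa using x3) x2.2.2.2
    have g1 : (co (pw w (pe w p q d))).2 a.lo = 0 := by
      simp only [co]; rw [pw_r r (by omega), e1 o _ (by omega)]; simp [zv]
    have g2 : (co (pw w (pe w p q d))).1 a.hi = 0 := by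
      simp only [co]; rw [pw_l r (by omega), pe_gt (by omega)]; simp [zv]
    simp [ar, lr, g1, g2]

/-- **parity of the square of a test** -/
theorem par : ∃ k : ℤ, ∑ j ∈ Icc p q, d j * (yb (co (pw w (pe w p q d))) p q j +
    ((w.bw p q j).1 * (w.bw p q j).2 : ℤ)) = 2 * k := by
  obtain ⟨k, hk⟩ := even_rel (w.bw p q) d (p := p) (q := q) (by linarith [T.rg.lt])
  rw [T.mer, mul_zero, sub_zero] at hk
  refine ⟨∑ j ∈ Icc p q, d j * ((w.bw p q j).1 * (w.bw p q j).2) - k, ?_⟩
  rw [sum_congr rfl fun j h => by rw [yb_pw T.rg (mem_Icc.1 h).1 (mem_Icc.1 h).2]]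
  norm_cast
  simp only [mul_add, sum_add_distrib, mul_neg, sum_neg_distrib] at hk ⊢
  linear_combination -hk

end Tst

end Crest.Agent.X212.Ord99
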