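import Crest.Agent.X212.Ord99.Tst

/-!
# Row 212, layer G (helper99): a real class that passes all tests is an integral class up to gauge

* `Dual`, `Pc.dual`; `Pc.exists_int`; `gap`; windows `Cu.bs_eq`, `Sub`, `win`; `AbR`, `abC`.
-/

set_option autoImplicit false
noncomputable section

namespace Crest.Agent.X212.Ord99

open Crest.Agent.X212.Rod53 hiding rho
open Crest.Agent.X212.Wd38 Crest.Agent.X212.Nm96 Finset

variable {Γ : Nm} {w : Shp Γ} {B : Finset Bs} {η : Bs → Bool} {s t c c' c'' j L R p q : ℤ} {x y z : RW} {a : Bs}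
  {b : Bool}

/-- the slot left (`false`) or right (`true`) of the point `c` -/
def slt (c : ℤ) (b : Bool) : ℤ := cond b c (c - 1)

/-- its rod -/
def vc (w : Shp Γ) (c : ℤ) (b : Bool) : Z2 := cond b (w.rt c) (w.lf c)

/-- its order -/
def vl (y : RW) (c : ℤ) (b : Bool) : ℝ := cond b (y.1 c) (y.2 (c - 1))

/-- rods that meet the piece -/
def Sp (w : Shp Γ) (B : Finset Bs) (η : Bs → Bool) (c : ℤ) (b : Bool) : Prop :=
  En w B η c ∧ ∀ a, No B η a → ¬(a.lo < slt c b ∧ slt c b < a.hi)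

/-- no junction between two points -/
def Jf (w : Shp Γ) (c c' : ℤ) : Prop := ∀ j, min c c' ≤ j → j < max c c' → ∃ τ, w.s j = .rod τ

theorem Jf.symm (h : Jf w c c') : Jf w c' c := fun j a b => h j (by omega) (by omega)

theorem Jf.trans (h : Jf w c c') (h' : Jf w c' c'') : Jf w c c'' := fun j a b =>
  if k : min c c' ≤ j ∧ j < max c c' then h j k.1 k.2 else h' j (by omega) (by omega)

theorem jf_rg (r : w.Rg p q) (h : p < c ∧ c ≤ q) (h' : p < c' ∧ c' ≤ q) : Jf w c c' :=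
  fun j _ _ => r.fr j (by omega) (by omega)

theorem part (r : w.Rg p q) (hx : TR w x) (h1 : p < c) (h2 : c ≤ q) (b : Bool) :
    slt c b ∈ Icc p q ∧ w.bw p q (slt c b) = vc w c b ∧ yb x p q (slt c b) = vl x c b := by
  cases b
  · exact ⟨by simp [slt]; omega, bw_r r (by simp [slt]; omega) (by simp [slt]; omega),
      hx.yb_r r (by simp [slt]; omega) (by simp [slt]; omega)⟩
  · exact ⟨by simp [slt]; omega, bw_l h1 h2, yb_l h1 h2⟩

/-- the class is characteristic -/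
def Dual (w : Shp Γ) (B : Finset Bs) (η : Bs → Bool) (y : RW) : Prop := ∀ p q d, Tst w B η p q d →
  ∃ k : ℤ, ∑ j ∈ Icc p q, d j * (yb y p q j - ((w.bw p q j).1 * (w.bw p q j).2 : ℤ)) = 2 * k

/-- the orders of `w₂` -/
def om (w : Shp Γ) : Wt := ⟨fun j => |(w.s j).l.2.1| * (w.s j).l.2.2, fun j => |(w.s j).r.2.1| * (w.s j).r.2.2, 0, 0⟩

theorem tok_om : TOK w (om w) :=
  ⟨fun j τ _ _ e => by simp only [om, e]; rfl, fun j _ _ e => by simp only [om, show (w.s (j - 1)).r.2 = _ from e]; rfl,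
    fun j _ _ e => by simp [om, show (w.s (j - 1)).r.2 = _ from e, Shp.rt]⟩

theorem even_om (v : Z2) : Even (|v.1| * v.2 - v.1 * v.2) := by
  rcases abs_choice v.1 with h | h <;> rw [h]
  exacts [by simp, ⟨-(v.1 * v.2), by ring⟩]

theorem vl_om : vl (co (om w)) c b = (|(vc w c b).1| * (vc w c b).2 : ℤ) := by cases b <;> rfl

namespace Pc
variable (P : Pc w B η)
include P

theorem dual (hJ : JQ Γ) (hy : TR w y) (h : ∀ p q d, Tst w B η p q d → ∃ k : ℤ,
    bs w B η (w.l - 1) (w.r + 1) y (co (pw w (pe w p q d))) +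
    bs w B η (w.l - 1) (w.r + 1) (co (pw w (pe w p q d))) (co (pw w (pe w p q d))) = 2 * k) : Dual w B η y :=
  fun p q d T => by
    obtain ⟨k, hk⟩ := h p q d T
    obtain ⟨k', hk'⟩ := T.par
    rw [T.bs_eq P hJ hy, T.bs_eq P hJ (tr_co.2 (tok_pw T.rg))] at hk
    refine ⟨-k - k', ?_⟩
    simp only [mul_add, mul_sub, sum_add_distrib, sum_sub_distrib] at hk' ⊢
    push_cast at hk' ⊢
    linear_combination -hk - hk'

theorem sp_in (h1 : w.l < c) (h2 : c ≤ w.r) (h : InV B η c) (b : Bool) : Sp w B η c b :=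
  ⟨en_of h1 h2 h, fun a n k => by
    cases b <;> simp only [slt, cond] at k <;> exact (P.en_no n (by omega) (by omega)).2 h⟩

theorem sp_no (n : No B η a) : Sp w B η (a.lo + 1) false ∧ Sp w B η a.hi true := by
  have := (P.bd n.1).2.2.2.2.1 n.2.1
  refine ⟨⟨(P.en_no n (by omega) (by omega)).1, fun a' n' k => ?_⟩, (P.en_no n this le_rfl).1, fun a' n' k => ?_⟩ <;>
    simp only [slt, cond] at k <;> by_cases e : a' = a
  · subst e; omega
  · have := P.no_far n n' e; omega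
  · subst e; omega
  · have := P.no_far n n' e; omega

variable (hE : ∀ c, En w B η c ↔ L < c ∧ c ≤ R) (hLR : L < R)
include hE hLR

theorem sp_LR : Sp w B η (L + 1) false ∧ Sp w B η R true := by
  refine ⟨⟨(hE _).2 (by omega), fun a n k => ?_⟩, (hE _).2 (by omega), fun a n k => ?_⟩ <;>
    simp only [slt, cond] at k
  · have := (hE _).1 (P.en_no n (c := a.lo + 1) (by omega) (by omega)).1; omega
  · have := (hE _).1 (P.en_no n (c := a.hi) (by omega) (by omega)).1; omega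

omit hE hLR in
theorem bs_congr (h : ∀ c b, Sp w B η c b → vl x c b = vl y c b) : bs w B η s t x z = bs w B η s t y z := by
  obtain ⟨L, R, hLR, hE⟩ := P.exists_LR
  unfold bs
  congr 1
  · exact sum_congr rfl fun c k => by
      simp only [mem_filter, mem_Ioc] at k
      rw [vx, vx, show x.1 c = _ from h c true (P.sp_in k.1.1 k.1.2 k.2.2.2 _),
        show x.2 (c - 1) = _ from h c false (P.sp_in k.1.1 k.1.2 k.2.2.2 _)]; rfl
  · refine sum_congr rfl fun a k => ?_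
    obtain ⟨k1, k2, -, -, k3⟩ := mem_filter.1 k
    have : Sp w B η (a.lo + 1) false ∧ Sp w B η a.hi true := by
      cases e : η a
      · obtain ⟨u, v⟩ := P.inn hE hLR k1 k2 e k3
        rw [u, v]; exact P.sp_LR hE hLR
      · exact P.sp_no ⟨k1, k2, e, k3⟩
    have e1 := h _ _ this.1
    simp only [vl, cond, add_sub_cancel_right] at e1
    rw [ar, ar, e1, show x.1 a.hi = _ from h _ _ this.2]; rfl

omit P hLR in
theorem three (hy : TR w y) (D : Dual w B η y) {c₁ c₂ c₃ α β γ : ℤ} {b₁ b₂ b₃ : Bool} (s1 : Sp w B η c₁ b₁)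
    (s2 : Sp w B η c₂ b₂) (s3 : Sp w B η c₃ b₃) (j2 : Jf w c₁ c₂) (j3 : Jf w c₁ c₃)
    (hp : α * (vc w c₁ b₁).2 + β * (vc w c₂ b₂).2 + γ * (vc w c₃ b₃).2 = 0)
    (hq : ¬Out B η → α * (vc w c₁ b₁).1 + β * (vc w c₂ b₂).1 + γ * (vc w c₃ b₃).1 = 0)
    (hz : ∀ c b, 2 * vl z c b = vl y c b - vl (co (om w)) c b) :
    ∃ k : ℤ, α * vl z c₁ b₁ + β * vl z c₂ b₂ + γ * vl z c₃ b₃ = k := by
  have e1 := (hE _).1 s1.1; have e2 := (hE _).1 s2.1; have e3 := (hE _).1 s3.1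
  have := s1.1.1; have := s2.1.1; have := s3.1.1; have := s1.1.2.1; have := s2.1.2.1; have := s3.1.2.1
  have r : w.Rg (min c₁ (min c₂ c₃) - 1) (max c₁ (max c₂ c₃)) := ⟨by omega, by omega, by omega, fun j u v =>
    if k : min c₁ c₂ ≤ j ∧ j < max c₁ c₂ then j2 j k.1 k.2 else j3 j (by omega) (by omega)⟩
  obtain ⟨m1, v1, y1⟩ := part r hy (c := c₁) (by omega) (by omega) b₁
  obtain ⟨m2, v2, y2⟩ := part r hy (c := c₂) (by omega) (by omega) b₂
  obtain ⟨m3, v3, y3⟩ := part r hy (c := c₃) (by omega) (by omega) b₃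
  have S : ∀ {V : Type} [Ring V] (f : ℤ → V), ∑ j ∈ Icc (min c₁ (min c₂ c₃) - 1) (max c₁ (max c₂ c₃)),
      (((if j = slt c₁ b₁ then α else 0) + (if j = slt c₂ b₂ then β else 0) + if j = slt c₃ b₃ then γ else 0 : ℤ) : V) * f j =
      α * f (slt c₁ b₁) + β * f (slt c₂ b₂) + γ * f (slt c₃ b₃) := fun f => by
    simp [add_mul, sum_add_distrib, m1, m2, m3, -mem_Icc]
  obtain ⟨k, hk⟩ := D _ _ (fun j => (if j = slt c₁ b₁ then α else 0) + (if j = slt c₂ b₂ then β else 0) +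
      if j = slt c₃ b₃ then γ else 0) ⟨r, fun c u v => (hE c).2 (by omega), fun a n j u v => by
    have := s1.2 a n; have := s2.2 a n; have := s3.2 a n
    rw [if_neg (by omega), if_neg (by omega), if_neg (by omega)]; rfl,
    (S fun j => (w.bw _ _ j).2).trans (by simpa [v1, v2, v3] using hp),
    fun o => (S fun j => (w.bw _ _ j).1).trans (by simpa [v1, v2, v3] using hq o)⟩
  rw [S, v1, v2, v3, y1, y2, y3] at hk
  obtain ⟨k1, h1⟩ := even_om (vc w c₁ b₁)
  obtain ⟨k2, h2⟩ := even_om (vc w c₂ b₂)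
  obtain ⟨k3, h3⟩ := even_om (vc w c₃ b₃)
  have g1 := hz c₁ b₁; have g2 := hz c₂ b₂; have g3 := hz c₃ b₃
  rw [vl_om, eq_add_of_sub_eq h1] at g1
  rw [vl_om, eq_add_of_sub_eq h2] at g2
  rw [vl_om, eq_add_of_sub_eq h3] at g3
  refine ⟨k - α * k1 - β * k2 - γ * k3, ?_⟩
  push_cast at *
  linear_combination (1 / 2) * (hk + α * g1 + β * g2 + γ * g3)

theorem exists_ch (hJ : JQ Γ) (hy : TR w y) (D : Dual w B η y) (hz : TR w z)
    (hz' : ∀ c b, 2 * vl z c b = vl y c b - vl (co (om w)) c b) (c : ℤ) : ∃ e : ℝ × ℝ, (Out B η → e.1 = 0) ∧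
      ∀ c' b, Jf w c c' → Sp w B η c' b → ∃ k : ℤ, vl z c' b + ev e (vc w c' b) = k := by
  have bd := bdLR hE hLR
  by_cases H : ∃ c₁ b₁ c₂ b₂, Jf w c c₁ ∧ Jf w c c₂ ∧ Sp w B η c₁ b₁ ∧ Sp w B η c₂ b₂ ∧
      Uni (vc w c₁ b₁) (vc w c₂ b₂)
  · obtain ⟨c₁, b₁, c₂, b₂, j1, j2, s1, s2, u⟩ := H
    have k := u.sq
    have T := fun c' b (j : Jf w c c') (s : Sp w B η c' b) => three hE hy D s1 s2 s (j1.symm.trans j2)
      (j1.symm.trans j) (α := dt (vc w c₁ b₁) (vc w c₂ b₂) * dt (vc w c' b) (vc w c₂ b₂))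
      (β := dt (vc w c₁ b₁) (vc w c₂ b₂) * dt (vc w c₁ b₁) (vc w c' b)) (γ := -1)
      (by unfold dt at *; linear_combination (vc w c' b).2 * k)
      (fun _ => by unfold dt at *; linear_combination (vc w c' b).1 * k) hz'
    by_cases o : Out B η
    · obtain ⟨k0, h0⟩ := three hE hy D s1 s2 s1 (j1.symm.trans j2) (j1.symm.trans j1) (α := (vc w c₂ b₂).2)
        (β := -(vc w c₁ b₁).2) (γ := 0) (by ring) (fun x => (x o).elim) hz'
      refine ⟨(0, -(dt (vc w c₁ b₁) (vc w c₂ b₂) * (vl z c₂ b₂ * (vc w c₁ b₁).1 - vl z c₁ b₁ * (vc w c₂ b₂).1))),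
        fun _ => rfl, fun c' b j s => ?_⟩
      obtain ⟨k, hk⟩ := T c' b j s
      refine ⟨dt (vc w c₁ b₁) (vc w c₂ b₂) * k0 * (vc w c' b).1 - k, ?_⟩
      simp only [ev, dt] at *
      push_cast at *
      linear_combination -hk + ((vc w c₁ b₁).1 * (vc w c₂ b₂).2 - (vc w c₁ b₁).2 * (vc w c₂ b₂).1) * (vc w c' b).1 * h0
    · refine ⟨(-(dt (vc w c₁ b₁) (vc w c₂ b₂) * (vl z c₁ b₁ * (vc w c₂ b₂).2 - vl z c₂ b₂ * (vc w c₁ b₁).2)),
        -(dt (vc w c₁ b₁) (vc w c₂ b₂) * (vl z c₂ b₂ * (vc w c₁ b₁).1 - vl z c₁ b₁ * (vc w c₂ b₂).1))),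
        fun x => (o x).elim, fun c' b j s => ?_⟩
      obtain ⟨k, hk⟩ := T c' b j s
      refine ⟨-k, ?_⟩
      simp only [ev, dt] at *
      push_cast at *
      linear_combination -hk
  by_cases H' : ∃ c', Jf w c c' ∧ En w B η c'
  swap
  · exact ⟨0, fun _ => rfl, fun c' b j s => (H' ⟨c', j, s.1⟩).elim⟩
  have ft : ∀ {c' p q}, Jf w c c' → w.Rg p q → p < c' → c' ≤ q → Sp w B η (p + 1) false → Sp w B η q true →
      ¬Uni (w.s p).r.2 (w.s q).l.2 := fun j r h1 h2 s1 s2 u =>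
    H ⟨_, _, _, _, j.trans (jf_rg r ⟨h1, h2⟩ (by omega)), j.trans (jf_rg r ⟨h1, h2⟩ (by omega)), s1, s2, by
      simpa [vc, Shp.lf, Shp.rt] using u⟩
  obtain ⟨c₀, ⟨j0, e0⟩, m⟩ := Int.exists_least_of_bdd (P := fun c' => Jf w c c' ∧ En w B η c')
    ⟨w.l, fun _ k => k.2.1.le⟩ H'
  have i0 := (hE _).1 e0
  have o : Out B η := by_contra fun o => by
    obtain ⟨a, k, e1, e2, h, -⟩ := P.exists_inn hE hLR o
    have := P.arc h k
    rw [e1, e2] at this
    exact ft j0 this.1 i0.1 i0.2 (P.sp_LR hE hLR).1 (P.sp_LR hE hLR).2 this.2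
  have p0 : (w.lf c₀).2 ≠ 0 := by
    by_cases u : c₀ - 1 = L
    · rw [Shp.lf, u]; exact P.pL hE hLR o
    rw [Shp.lf]
    cases e : w.s (c₀ - 1) with
    | jn J => exact (hJ J).2
    | rod τ =>
      have := m (c₀ - 1) ⟨j0.trans fun j _ _ => ⟨τ, by rw [← e]; congr 1; omega⟩, (hE _).2 (by omega)⟩
      omega
  set e : ℝ × ℝ := (0, -z.2 (c₀ - 1) / (w.lf c₀).2) with he
  have st : ∀ c', Jf w c c' → En w B η c' → z.2 (c' - 1) + ev e (w.lf c') = 0 → z.1 c' + ev e (w.rt c') = 0 :=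
    fun c' j s h => by
      have i : InV B η c' := by_contra fun i => by
        obtain ⟨a, n, k⟩ := P.no_of s i
        exact ft j (P.arc n.1 n.2.1).1 k.1 k.2 (P.sp_no n).1 (P.sp_no n).2 (P.arc n.1 n.2.1).2
      rcases (P.hw.st c' s.1 s.2.1).2 with (k | k) | k
      · rwa [hz.eq c' s.1 s.2.1 k, show w.lf c' = _ from k] at h
      · rw [hz.neg c' s.1 s.2.1 k, show w.lf c' = _ from k] at h
        simp only [ev, Prod.fst_neg, Prod.snd_neg, Int.cast_neg, Shp.rt] at h ⊢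
        linear_combination -h
      · exact (H ⟨c', false, c', true, j, j, P.sp_in s.1 s.2.1 i _, P.sp_in s.1 s.2.1 i _, k⟩).elim
  have up : ∀ c', c₀ ≤ c' → Jf w c c' → En w B η c' → z.2 (c' - 1) + ev e (w.lf c') = 0 := fun c' h => by
    induction c', h using Int.leInduction with
    | base =>
      have : ((w.lf c₀).2 : ℝ) ≠ 0 := by exact_mod_cast p0
      exact fun _ _ => by simp [he, ev]; field_simp; ring
    | succ c' h ih =>
      intro j s
      have := (hE _).1 s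
      have j' : Jf w c₀ c' := fun i u v => j0.symm.trans j i (by omega) (by omega)
      have s' := (hE c').2 (by omega)
      obtain ⟨τ, k⟩ := j0.symm.trans j c' (by omega) (by omega)
      have := st c' (j0.trans j') s' (ih (j0.trans j') s')
      rwa [Shp.lf, add_sub_cancel_right, ← hz.rod c' τ s'.1 (by omega) k, show (w.s c').r.2 = w.rt c' by
        rw [Shp.rt, k]; rfl]
  refine ⟨e, fun _ => rfl, fun c' b j s => ⟨0, ?_⟩⟩
  have := up c' (m c' ⟨j, s.1⟩) j s.1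
  cases b
  exacts [this.trans Int.cast_zero.symm, (st c' j s.1 this).trans Int.cast_zero.symm]

theorem exists_ext (hz : TR w z) (hi : ∀ c b, Sp w B η c b → ∃ k : ℤ, vl z c b = k) :
    ∃ n : Wt, TOK w n ∧ ∀ c b, Sp w B η c b → vl (co n) c b = vl z c b := by
  classical
  have bd := bdLR hE hLR
  have fl : ∀ c b, Sp w B η c b → (⌊vl z c b⌋ : ℝ) = vl z c b := fun c b s => by
    obtain ⟨k, e⟩ := hi c b s
    rw [e, Int.floor_intCast]
  have un : ∀ {u v : Z2}, Uni u v → ∀ i j : ℤ, ∃ e, zv e u = i ∧ zv e v = j := fun {u v} h i j =>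
    ⟨(dt u v * (i * v.2 - j * u.2), dt u v * (j * u.1 - i * v.1)), by
      have := h.sq
      unfold zv dt at *
      exact ⟨by linear_combination i * this, by linear_combination j * this⟩⟩
  obtain ⟨eL, hL, -⟩ := un (P.hw.pr L bd.1 (by omega)).2.choose_spec ⌊z.2 L⌋ 0
  obtain ⟨eR, hR, -⟩ := un (P.hw.pr R (by omega) bd.2).1.choose_spec ⌊z.1 R⌋ 0
  choose! ea ha using fun a (n : No B η a) => un (P.arc n.1 n.2.1).2 ⌊z.2 a.lo⌋ ⌊z.1 a.hi⌋
  obtain ⟨χ, h1, h2, h3⟩ : ∃ χ : ℤ → Z2, (∀ c a, No B η a → a.lo < c → c ≤ a.hi → χ c = ea a) ∧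
      (∀ c ≤ L, χ c = eL) ∧ ∀ c, R < c → χ c = eR := by
    have : ∀ c, ∃ e, (∀ a, No B η a → a.lo < c → c ≤ a.hi → e = ea a) ∧ (c ≤ L → e = eL) ∧ (R < c → e = eR) :=
      fun c => by
        by_cases k : ∃ a, No B η a ∧ a.lo < c ∧ c ≤ a.hi
        · obtain ⟨a, n, k⟩ := k
          have := (hE c).1 (P.en_no n k.1 k.2).1
          exact ⟨ea a, fun a' n' u v => congrArg ea (by_contra fun e => by have := P.no_far n' n e; omega),
            by omega, by omega⟩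
        · exact ⟨if c ≤ L then eL else eR, fun a n u v => (k ⟨a, n, u, v⟩).elim, fun u => if_pos u,
            fun u => if_neg (by omega)⟩
    choose χ h using this
    exact ⟨χ, fun c => (h c).1, fun c => (h c).2.1, fun c => (h c).2.2⟩
  let n : Wt := ⟨fun c => if En w B η c ∧ InV B η c then ⌊z.1 c⌋ else zv (χ c) (w.rt c),
    fun j => if En w B η (j + 1) ∧ InV B η (j + 1) then ⌊z.2 j⌋ else zv (χ (j + 1)) (w.s j).r.2, 0, 0⟩
  have nl : ∀ c, n.nl c = if En w B η c ∧ InV B η c then ⌊z.1 c⌋ else zv (χ c) (w.rt c) := fun _ => rfl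
  have nr : ∀ c, n.nr (c - 1) = if En w B η c ∧ InV B η c then ⌊z.2 (c - 1)⌋ else zv (χ c) (w.lf c) :=
    fun c => by simp only [n, sub_add_cancel, Shp.lf]
  have key : ∀ c b, Sp w B η c b → vl (co n) c b = vl z c b := fun c b s => by
    rw [← fl c b s]
    by_cases i : InV B η c
    · cases b <;> simp only [vl, co, cond, nl, nr, if_pos (And.intro s.1 i)]
    obtain ⟨a, m, k⟩ := P.no_of s.1 i
    have := s.2 a m
    cases b <;> simp only [vl, co, cond, nl, nr, if_neg fun x : _ ∧ _ => i x.2, slt, h1 c a m k.1 k.2] at this ⊢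
    · rw [Shp.lf, show c - 1 = a.lo by omega, (ha a m).1]
    · rw [Shp.rt, show c = a.hi by omega, (ha a m).2]
  have cst : ∀ {i j : ℤ}, (i : ℝ) = j → i = j := fun h => Int.cast_injective h
  refine ⟨n, ⟨fun j τ u v e => ?_, fun c u v e => ?_, fun c u v e => ?_⟩, key⟩
  · have r : w.lf (j + 1) = w.rt j := by rw [Shp.lf, add_sub_cancel_right, Shp.rt, e]; rfl
    have n2 := nr (j + 1)
    rw [add_sub_cancel_right, r] at n2
    by_cases k : ∃ a, No B η a ∧ a.lo < j ∧ j < a.hi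
    · obtain ⟨a, m, k⟩ := k
      rw [n2, nl, if_neg fun x => (P.en_no m k.1 k.2.le).2 x.2,
        if_neg fun x => (P.en_no m (by omega) (by omega)).2 x.2, h1 j a m k.1 k.2.le, h1 _ a m (by omega) (by omega)]
    have s1 := fun x => key j true ⟨x, fun a m y => k ⟨a, m, y⟩⟩
    have s2 := fun x => key (j + 1) false ⟨x, fun a m y => k ⟨a, m, by simpa [slt] using y⟩⟩
    have z1 := hz.rod j τ u v e
    simp only [vl, co, cond, add_sub_cancel_right, hE] at s1 s2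
    rcases lt_trichotomy j L with i | rfl | i
    · rw [n2, nl, if_neg fun x => by have := (hE _).1 x.1; omega, if_neg fun x => by have := (hE _).1 x.1; omega,
        h2 _ i.le, h2 _ i]
    · rw [nl, if_neg fun x => by have := (hE _).1 x.1; omega, h2 _ le_rfl, ← r, Shp.lf, add_sub_cancel_right, hL]
      exact cst ((by simpa [vl] using fl _ _ (P.sp_LR hE hLR).1 : _ = z.2 j).trans (s2 (by omega)).symm)
    rcases lt_trichotomy j R with i' | rfl | i'
    · exact cst ((s1 (by omega)).trans (z1.trans (s2 (by omega)).symm))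
    · rw [n2, if_neg fun x => by have := (hE _).1 x.1; omega, h3 _ (by omega), Shp.rt, hR]
      exact cst ((s1 (by omega)).trans (fl _ _ (P.sp_LR hE hLR).2).symm)
    · rw [n2, nl, if_neg fun x => by have := (hE _).1 x.1; omega, if_neg fun x => by have := (hE _).1 x.1; omega,
        h3 _ i', h3 _ (by omega)]
  · by_cases i : En w B η c ∧ InV B η c
    · exact cst ((key c false (P.sp_in u v i.2 _)).trans ((hz.eq c u v e).trans (key c true (P.sp_in u v i.2 _)).symm))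
    · rw [nl, nr, if_neg i, if_neg i, e]
  · by_cases i : En w B η c ∧ InV B η c
    · exact cst ((key c false (P.sp_in u v i.2 _)).trans ((hz.neg c u v e).trans
        ((congrArg Neg.neg (key c true (P.sp_in u v i.2 _)).symm).trans (Int.cast_neg _).symm)))
    · rw [nl, nr, if_neg i, if_neg i, e]
      simp only [zv, Prod.fst_neg, Prod.snd_neg]
      ring

omit hE hLR

/-- **integral orders of a characteristic real class** -/
theorem exists_int (hJ : JQ Γ) {n : Wt} (hn : TOK w n) (hy : TR w y) (D : Dual w B η (co n + y)) :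
    ∃ n', TOK w n' ∧ Par w n n' ∧ ∀ s t, s = w.l - 1 ∨ Cu w B s →
      (t = w.r + 1 ∧ ¬InV B η (w.r + 1)) ∨ Cu w B t → ssum w B η s t lq n' = bs w B η s t y y := by
  obtain ⟨L, R, hLR, hE⟩ := P.exists_LR
  have hY := (tr_co.2 hn).add hy
  have hz := (hY.add ((tr_co.2 tok_om).smul (-1))).smul (1 / 2)
  set z := (1 / 2 : ℝ) • (co n + y + (-1 : ℝ) • co (om w)) with ez
  have hz' : ∀ c b, 2 * vl z c b = vl (co n + y) c b - vl (co (om w)) c b := fun c b => by
    cases b <;> simp [vl, ez] <;> ring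
  let Q : ℤ → ℝ × ℝ → Prop := fun c e => (Out B η → e.1 = 0) ∧
    ∀ c' b, Jf w c c' → Sp w B η c' b → ∃ k : ℤ, vl z c' b + ev e (vc w c' b) = k
  let E : ℤ → ℝ × ℝ := fun c => Classical.epsilon (Q c)
  have hQ : ∀ c, Q c (E c) := fun c => Classical.epsilon_spec (P.exists_ch hE hLR hJ hY D hz hz' c)
  have hE' : ∀ c c', Jf w c c' → E c = E c' := fun c c' j => congrArg Classical.epsilon (funext fun e => propext
    (and_congr_right' (forall₂_congr fun _ _ => imp_congr_left ⟨j.symm.trans, j.trans⟩)))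
  have hr : ∀ j τ, w.s j = .rod τ → E (j + 1) = E j := fun j τ e => hE' _ _ fun i _ _ =>
    ⟨τ, by rw [← e]; congr 1; omega⟩
  let g : RW := (fun j => ev (E j) (w.rt j), fun j => ev (E (j + 1)) (w.s j).r.2)
  have vg : ∀ c b, vl g c b = ev (E c) (vc w c b) := fun c b => by
    cases b <;> simp only [vl, vc, g, cond, sub_add_cancel, Shp.lf]
  have F : Fol w B η E g := ⟨fun c _ => vg c false, fun c _ => rfl, fun a m c u v =>
    hE' _ _ (jf_rg (P.arc m.1 m.2.1).1 ⟨u, v⟩ (by omega))⟩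
  have hg : TR w g := ⟨fun j τ _ _ e => by simp only [g, hr j τ e, Shp.rt, e]; rfl,
    fun c _ _ e => (vg c false).trans (congrArg (ev (E c)) e), fun c _ _ e => (vg c false).trans (by
      simp only [vc, cond, e, g, ev, Prod.fst_neg, Prod.snd_neg, Int.cast_neg]; ring)⟩
  have va : ∀ (x y : RW) c b, vl (x + y) c b = vl x c b + vl y c b := fun x y c b => by cases b <;> rfl
  obtain ⟨m, hm, km⟩ := P.exists_ext hE hLR (hz.add hg) fun c b s => by
    rw [va, vg]; exact (hQ c).2 c b (fun j _ _ => by omega) s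
  let n' : Wt := ⟨fun j => (om w).nl j + 2 * m.nl j - n.nl j, fun j => (om w).nr j + 2 * m.nr j - n.nr j, 0, 0⟩
  have o := tok_om (w := w)
  refine ⟨n', ⟨fun j τ u v e => ?_, fun j u v e => ?_, fun j u v e => ?_⟩, ⟨fun j _ _ => ?_, fun j _ _ => ?_⟩,
    fun s t hs ht => ?_⟩
  · simp only [n', o.rod j τ u v e, hm.rod j τ u v e, hn.rod j τ u v e]
  · simp only [n', o.eq j u v e, hm.eq j u v e, hn.eq j u v e]
  · simp only [n', o.neg j u v e, hm.neg j u v e, hn.neg j u v e]; ring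
  · exact let ⟨k, e⟩ := even_om (w.s j).l.2
      ⟨k + m.nl j - n.nl j, by simp only [n', om]; linear_combination e⟩
  · exact let ⟨k, e⟩ := even_om (w.s j).r.2
      ⟨k + m.nr j - n.nr j, by simp only [n', om]; linear_combination e⟩
  have e : ∀ c b, Sp w B η c b → vl (co n') c b = vl (y + (2 : ℝ) • g) c b := fun c b k => by
    have h1 := km c b k
    have h2 := hz' c b
    rw [va] at h1 h2
    cases b <;> simp only [vl, cond, co, n', Prod.fst_add, Prod.snd_add, Prod.smul_fst, Prod.smul_snd, Pi.add_apply,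
      Pi.smul_apply, smul_eq_mul] at h1 h2 ⊢ <;> push_cast <;> linear_combination 2 * h1 + h2
  have G := fun x (hx : TR w x) => P.gauge hE hLR hJ hx F (fun j τ _ _ => hr j τ) (fun o c => (hQ c).1 o) hs ht
  rw [ssum_lq, P.bs_congr e, bs_symm, P.bs_congr e, bs_add, bs_smul, bs_symm (x := g), G _ (hy.add (hg.smul 2)),
    bs_symm, bs_add, bs_smul, bs_symm (x := g), G _ hy]
  ring

end Pc

/-- **the squares of integral classes are discrete** -/
theorem gap (hw : w.OK) (r : ℝ) : ∃ δ : ℝ, 0 < δ ∧ ∀ (B : Finset Bs) η s t n, (∀ a ∈ B, w.l ≤ a.lo ∧ a.lo ≤ w.r ∧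
    w.l ≤ a.hi ∧ a.hi ≤ w.r) → |ssum w B η s t lq n - r| < δ → ssum w B η s t lq n = r := by
  let dn : Z2 → ℤ := fun v => if v.2 = 0 then v.1 else v.2
  let N : ℤ := ∏ j ∈ Icc w.l w.r, dn (w.s j).l.2 * dn (w.s j).r.2
  have d0 : ∀ {v}, Pr v → dn v ≠ 0 := fun {v} ⟨_, h⟩ => by
    simp only [dn]
    split_ifs with k
    exacts [fun e => h.ne_zero (Prod.ext e k), k]
  have N0 : N ≠ 0 := prod_ne_zero_iff.2 fun j h => let k := hw.pr j (mem_Icc.1 h).1 (mem_Icc.1 h).2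
    mul_ne_zero (d0 k.1) (d0 k.2)
  have dv : ∀ j, w.l ≤ j → j ≤ w.r → dn (w.s j).l.2 ∣ N ∧ dn (w.s j).r.2 ∣ N := fun j u v =>
    have := dvd_prod_of_mem (fun j => dn (w.s j).l.2 * dn (w.s j).r.2) (mem_Icc.2 ⟨u, v⟩)
    ⟨(dvd_mul_right _ _).trans this, (dvd_mul_left _ _).trans this⟩
  let S : AddSubgroup ℝ := (AddSubgroup.zmultiples (1 : ℝ)).comap (AddMonoidHom.mulLeft (N : ℝ))
  have mS : ∀ x, x ∈ S ↔ ∃ k : ℤ, (k : ℝ) = N * x := fun x => by simp [S, AddSubgroup.mem_zmultiples_iff]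
  have rh : ∀ u v, dn v ∣ N → ∃ k : ℤ, (k : ℝ) = N * rho u v := by
    rintro u v ⟨k, hk⟩
    have : (dn v : ℝ) ≠ 0 := by exact_mod_cast left_ne_zero_of_mul (hk ▸ N0)
    refine ⟨k * if v.2 = 0 then u.1 else u.2, ?_⟩
    rw [hk, rho]
    simp only [dn] at this ⊢
    split_ifs at this ⊢ <;> push_cast <;> field_simp
  have lq' : ∀ u v x y, dn u ∣ N → dn v ∣ N → lq u v x y ∈ S := fun u v x y hu hv => by
    obtain ⟨k, hk⟩ := rh u v hv
    obtain ⟨k', hk'⟩ := rh v u hu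
    exact (mS _).2 ⟨-dt u v * (x * x * k' - N * (x * y + x * y) + y * y * k), by
      rw [lq, lb]; push_cast; rw [hk, hk']; ring⟩
  obtain ⟨δ, d, H⟩ := Metric.eventually_nhds_iff.1 ((continuous_const_mul (N : ℝ)).continuousAt.eventually_mem
    ((Int.isClosedEmbedding_coe_real.isClosedMap {m | (m : ℝ) ≠ N * r} (isClosed_discrete _)).isOpen_compl.mem_nhds
      (x := N * r) fun ⟨_, h, e⟩ => h e))
  refine ⟨δ, d, fun B η s t n hB h => ?_⟩
  obtain ⟨k, hk⟩ := (mS (ssum w B η s t lq n)).1 (S.add_mem (S.sum_mem fun c x => by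
      simp only [mem_filter, mem_Ioc] at x
      exact lq' _ _ _ _ (dv _ (by omega) (by omega)).2 (dv _ (by omega) x.1.2).1) (S.sum_mem fun a x => by
      have b := hB a (mem_filter.1 x).1
      have := lq' _ _ (n.nr a.lo) (n.nl a.hi) (dv _ b.1 b.2.1).2 (dv _ b.2.2.1 b.2.2.2).1
      split_ifs
      exacts [by rwa [one_mul], by rw [neg_one_mul]; exact S.neg_mem this]))
  exact mul_left_cancel₀ (Int.cast_ne_zero.2 N0) (hk.symm.trans (by_contra fun p => H h ⟨k, p, hk⟩))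

/-! ### windows -/

section win
variable {u : ℤ} (h : Cu w B u)
include h

theorem Cu.nm : .yS u ∉ B := fun k => by simpa [Bs.lo, Bs.hi] using h.2.2.2 _ k

theorem Cu.up (k : a ∈ B) : Function.update η (.yS u) b a = η a :=
  Function.update_of_ne (ne_of_mem_of_not_mem k h.nm) _ _

theorem Cu.inV : InV (insert (.yS u) B) (Function.update η (.yS u) b) c ↔ decide (u < c) = b ∧ InV B η c := by
  rw [InV, forall_mem_insert, Function.update_self]
  exact and_congr_right' (forall₂_congr fun a k => by rw [h.up k])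

theorem Cu.adj (k : a ∈ B) : Adj (insert (.yS u) B) (Function.update η (.yS u) b) a ↔
    decide (u < a.lo + 1) = b ∧ Adj B η a := by
  rw [Adj, erase_insert_of_ne (ne_of_mem_of_not_mem k h.nm).symm]
  exact Cu.inV ⟨h.1, h.2.1, h.2.2.1, fun a k => h.2.2.2 a (mem_of_mem_erase k)⟩

theorem Cu.bs_eq : bs w (insert (.yS u) B) (Function.update η (.yS u) b) s t x y =
    bs w B η (cond b (max s u) s) (cond b t (min t u)) x y := by
  unfold bs
  congr 1
  · exact sum_congr (filter_congr fun c _ => by rw [h.inV]; cases b <;> simp <;> tauto) fun _ _ => rfl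
  · rw [filter_insert, if_neg fun k => k.1]
    exact sum_congr (filter_congr fun a k => by rw [h.adj k]; cases b <;> simp [Int.lt_add_one_iff] <;> tauto)
      fun a k => by rw [h.up (mem_filter.1 k).1]

theorem Cu.pc (P : Pc w B η) (h1 : w.l < c) (h2 : c ≤ w.r) (i : InV B η c) (e : decide (u < c) = b) :
    Pc w (insert (.yS u) B) (Function.update η (.yS u) b) where
  hw := P.hw
  ok := forall_mem_insert _ _ _ |>.2 ⟨⟨⟨h.1, h.2.1⟩, .inr ⟨u, rfl, h.2.2.1⟩⟩, P.ok⟩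
  far a k a' k' n := by
    rw [mem_insert] at k k'
    rcases k with rfl | k <;> rcases k' with rfl | k'
    exacts [(n rfl).elim, (h.2.2.2 _ k').elim (.inr ∘ .inl) .inl, (h.2.2.2 _ k).elim .inl (.inr ∘ .inl),
      P.far a k a' k' n]
  ne := ⟨c, h1, h2, h.inV.2 ⟨e, i⟩⟩
  nf k := P.nf (h.inV.1 k).2

theorem Cu.cu (k : Cu w B s) (n : s ≠ u) : Cu w (insert (.yS u) B) s :=
  ⟨k.1, k.2.1, k.2.2.1, forall_mem_insert _ _ _ |>.2 ⟨n.symm.lt_or_gt, k.2.2.2⟩⟩

end win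

theorem Pc.bs_zero (P : Pc w B η) (hs : s = w.l - 1 ∨ Cu w B s)
    (h : ¬∃ c, w.l < c ∧ c ≤ w.r ∧ s < c ∧ c ≤ t ∧ InV B η c) : bs w B η s t x y = 0 := by
  rw [bs, sum_eq_zero fun c k => ?_, sum_eq_zero fun a k => ?_, add_zero] <;>
    simp only [mem_filter, mem_Ioc] at k <;> refine (h ?_).elim
  · have := P.bd k.1
    have := hs.imp_right fun e => e.2.2.2 a k.1
    exact (P.adj_in k.1 k.2.2.2.2).elim (fun i => ⟨_, by omega, by omega, by omega, by omega, i⟩) fun i =>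
      ⟨_, lt_of_le_of_ne (P.bd k.1).1 fun q => P.nf (q ▸ i), by omega, by omega, by omega, i⟩
  · exact ⟨c, k.1.1, k.1.2, k.2⟩

/-- the sum over the whole piece -/
abbrev bt (w : Shp Γ) (B : Finset Bs) (η : Bs → Bool) (x y : RW) : ℝ := bs w B η (w.l - 1) (w.r + 1) x y

variable {F : Fm Γ} {B' B'' : Finset Bs} {η' η'' : Bs → Bool}

/-- a middle piece that is cut out of `(B, η)` by frozen rational homology spheres -/
structure Sub (F : Fm Γ) (B : Finset Bs) (η : Bs → Bool) (B' : Finset Bs) (η' : Bs → Bool) : Prop where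
  pc : Pc F.w B' η'
  nl : ¬InV B' η' (F.w.r + 1)
  sub : B ⊆ B'
  eq : ∀ a ∈ B, η' a = η a
  cut : ∀ a ∈ B', a ∈ B ∨ ∃ s, a = .yS s ∧ F.Cut s

theorem Sub.trans (h : Sub F B η B' η') (h' : Sub F B' η' B'' η'') : Sub F B η B'' η'' :=
  ⟨h'.pc, h'.nl, h.sub.trans h'.sub, fun a k => (h'.eq a (h.sub k)).trans (h.eq a k),
    fun a k => (h'.cut a k).elim (h.cut a) .inr⟩

theorem sub_refl (P : Pc F.w B η) (h : ¬InV B η (F.w.r + 1)) : Sub F B η B η :=
  ⟨P, h, subset_rfl, fun _ _ => rfl, fun _ => .inl⟩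

theorem sub_cut (P : Pc F.w B η) (k : F.Cut s) (h : Cu F.w B s) (h1 : F.w.l < c) (h2 : c ≤ F.w.r) (i : InV B η c)
    (e : decide (s < c) = b) (n : b = false ∨ ¬InV B η (F.w.r + 1)) :
    Sub F B η (insert (.yS s) B) (Function.update η (.yS s) b) :=
  ⟨h.pc P h1 h2 i e, fun x => n.elim (fun z => by
      have := (h.inV.1 x).1
      rw [z, decide_eq_false_iff_not] at this
      exact this (by linarith [h.2.1])) fun z => z (h.inV.1 x).2, subset_insert _ _, fun _ => h.up,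
    fun _ x => (mem_insert.1 x).symm.imp_right fun e => ⟨s, e, k⟩⟩

theorem win (P : Pc F.w B η) (n : ¬InV B η (F.w.r + 1)) (hs : s = F.w.l - 1 ∨ F.Cut s ∧ Cu F.w B s)
    (ht : t = F.w.r + 1 ∨ F.Cut t ∧ Cu F.w B t) : bs F.w B η s t y y = 0 ∨
      ∃ B' η', Sub F B η B' η' ∧ bs F.w B η s t y y = bt F.w B' η' y y := by
  refine (em _).symm.imp (P.bs_zero (hs.imp_right And.right)) fun ⟨c, h1, h2, h3, h4, i⟩ => ?_
  obtain ⟨B', η', S, e, i', hs'⟩ : ∃ B' η', Sub F B η B' η' ∧ bs F.w B η s t y y = bs F.w B' η' s (F.w.r + 1) y y ∧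
      InV B' η' c ∧ (s = F.w.l - 1 ∨ F.Cut s ∧ Cu F.w B' s) := by
    rcases ht with rfl | ⟨k, u⟩
    · exact ⟨B, η, sub_refl P n, rfl, i, hs⟩
    · exact ⟨_, _, sub_cut P k u h1 h2 i (decide_eq_false h4.not_gt) (.inl rfl), by
        rw [u.bs_eq, cond_false, cond_false, min_eq_right (by linarith [u.2.1])],
        u.inV.2 ⟨decide_eq_false h4.not_gt, i⟩, hs.imp_right (And.imp_right fun x => u.cu x (by omega))⟩
  rcases hs' with rfl | ⟨k, u⟩
  · exact ⟨B', η', S, e⟩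
  · exact ⟨_, _, S.trans (sub_cut S.pc k u h1 h2 i' (decide_eq_true h3) (.inr S.nl)), by
      rw [e, bt, u.bs_eq, cond_true, cond_true, max_eq_right (by linarith [u.1])]⟩

theorem cu_of {Q : Pm Γ} (h : F.OK Q) (hB : ∀ a ∈ B, ∀ b ∈ F.fz, a.Far b) (k : F.Cut s) :
    Cu F.w B s :=
  ⟨(h.fz _ k.1).1.1, (h.fz _ k.1).1.2, k.2, fun a x => by simpa [Bs.Far, Bs.arc, Bs.lo, Bs.hi] using hB a x _ k.1⟩

/-- the real form of `Fm.AbC` -/
def AbR (F : Fm Γ) (n : Wt) (B : Finset Bs) (η : Bs → Bool) (δ ε k : ℝ) : Prop :=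
  ∀ B' η', Sub F B η B' η' → ∃ y, TR F.w y ∧ Dual F.w B' η' (co n + y) ∧ (B' = B → |k + bt F.w B' η' y y / 4| ≤ ε) ∧
    ∀ B'' η'', Sub F B' η' B'' η'' → bt F.w B'' η'' y y < δ ∧ -bt F.w B'' η'' y y / 4 - 1 ≤ k

/-- **real abelian data give integral ones** -/
theorem abC (hJ : JQ Γ) {Q : Pm Γ} (h : F.OK Q) : ∃ δ : ℝ, 0 < δ ∧ ∀ B η n k, Pc F.w B η →
    (∀ a ∈ B, ∀ b ∈ F.fz, a.Far b) → TOK F.w n → 0 ≤ k → (∀ ε > 0, AbR F n B η δ ε k) →
      ∃ n', F.AbC n B η n' k := by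
  obtain ⟨δ, d, H⟩ := gap h.w 0
  refine ⟨δ, d, fun B η n k P hB hn k0 A => ?_⟩
  obtain ⟨ε, d', H'⟩ := gap h.w (-4 * k)
  replace A := A (ε / 8) (by positivity)
  have bd : ∀ a ∈ B, F.w.l ≤ a.lo ∧ a.lo ≤ F.w.r ∧ F.w.l ≤ a.hi ∧ a.hi ≤ F.w.r := fun a x => by
    have := P.bd x; omega
  have cu := fun {s} => cu_of (s := s) h hB
  have key : ∀ B' η', Sub F B η B' η' → (¬F.Lst B η → B' = B ∧ η' = η) →
      (∀ s t, s = F.w.l - 1 ∨ F.Cut s → (t = F.w.r + 1 ∧ ¬F.Lst B η) ∨ F.Cut t → t ≤ s ∨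
        ∃ t', (s = F.w.l - 1 ∨ F.Cut s ∧ Cu F.w B' s) ∧ (t' = F.w.r + 1 ∨ F.Cut t' ∧ Cu F.w B' t') ∧
          ∀ x, bs F.w B η s t x x = bs F.w B' η' s t' x x) → ∃ n', F.AbC n B η n' k := fun B' η' S e W => by
    obtain ⟨y, hy, D, l, w⟩ := A B' η' S
    obtain ⟨n', h1, h2, h3⟩ := S.pc.exists_int hJ hn hy D
    have W' : ∀ s t, s = F.w.l - 1 ∨ F.Cut s → (t = F.w.r + 1 ∧ ¬F.Lst B η) ∨ F.Cut t →
        ssum F.w B η s t lq n' < δ ∧ -ssum F.w B η s t lq n' / 4 - 1 ≤ k := fun s t hs ht => by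
      have z : ∀ {r : ℝ}, r = 0 → r < δ ∧ -r / 4 - 1 ≤ k := fun e => by rw [e]; exact ⟨d, by linarith⟩
      rcases W s t hs ht with u | ⟨t', u, v, e⟩
      · exact z ((ssum_lq n').trans (P.bs_zero (hs.imp_right cu) fun ⟨c, x⟩ => by omega))
      rw [ssum_lq, e, ← ssum_lq, h3 s t' (u.imp_right And.right) (v.imp (fun x => ⟨x, S.nl⟩) And.right)]
      rcases win (y := y) S.pc S.nl u v with e | ⟨_, _, S', e⟩
      exacts [z e, by rw [e]; exact w _ _ S']
    refine ⟨n', h1, h2, k0, fun x => ?_, fun t x => (W' _ t (.inl rfl) (.inr x)).2,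
      fun s t hs ht => le_of_not_gt fun p => p.ne' (H B η s t n' bd (by
        rw [sub_zero, abs_of_pos p]; exact (W' s t hs ht).1))⟩
    obtain ⟨rfl, rfl⟩ := e x
    have := abs_le.1 (l rfl)
    rw [Fm.tot, H' _ _ _ _ n' bd (by rw [h3 _ _ (.inl rfl) (.inl ⟨rfl, x⟩), abs_lt]; constructor <;> linarith)]
    ring
  by_cases l : F.Lst B η
  swap
  · exact key B η (sub_refl P l) (fun _ => ⟨rfl, rfl⟩) fun s t hs ht => .inr
      ⟨t, hs.imp_right fun x => ⟨x, cu x⟩, ht.imp And.left fun x => ⟨x, cu x⟩, fun _ => rfl⟩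
  by_cases e : ∃ t c, F.Cut t ∧ F.w.l < c ∧ c ≤ F.w.r ∧ c ≤ t ∧ InV B η c
  · obtain ⟨t, c, x, h1, h2, h3, i⟩ := e
    obtain ⟨u, x', m⟩ := Int.exists_greatest_of_bdd (P := F.Cut) ⟨F.w.r, fun _ k => (cu k).2.1.le⟩ ⟨t, x⟩
    have := (cu x').2.1
    refine key _ _ (sub_cut P x' (cu x') h1 h2 i (decide_eq_false (h3.trans (m t x)).not_gt) (.inl rfl))
      (fun z => (z l).elim) fun s t hs ht => (le_or_gt t s).imp_right fun v => ?_
    have ht := ht.resolve_left fun z => z.2 l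
    have hs' := hs.imp_right fun z => And.intro z ((cu x').cu (cu z) (v.trans_le (m t ht)).ne)
    rcases (m t ht).eq_or_lt with rfl | q
    · exact ⟨_, hs', .inl rfl, fun _ => by rw [(cu x').bs_eq, cond_false, cond_false, min_eq_right (by omega)]⟩
    · exact ⟨t, hs', .inr ⟨ht, (cu x').cu (cu ht) q.ne⟩, fun _ => by
        rw [(cu x').bs_eq, cond_false, cond_false, min_eq_left q.le]⟩
  have z : ∀ s t n', s = F.w.l - 1 ∨ F.Cut s → F.Cut t → ssum F.w B η s t lq n' = 0 := fun s t _ hs ht =>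
    (ssum_lq _).trans (P.bs_zero (hs.imp_right cu) fun ⟨c, x⟩ => e ⟨t, c, ht, x.1, x.2.1, x.2.2.2⟩)
  have o := tok_om (w := F.w)
  refine ⟨⟨fun j => (om F.w).nl j + n.nl j, fun j => (om F.w).nr j + n.nr j, 0, 0⟩,
    ⟨fun j τ u v e => ?_, fun j u v e => ?_, fun j u v e => ?_⟩, ⟨fun j _ _ => ?_, fun j _ _ => ?_⟩, k0,
    fun x => (x l).elim, fun t x => by rw [z _ t _ (.inl rfl) x]; linarith,
    fun s t hs ht => (z s t _ hs (ht.resolve_left fun x => x.2 l)).le⟩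
  · simp only [o.rod j τ u v e, hn.rod j τ u v e]
  · simp only [o.eq j u v e, hn.eq j u v e]
  · simp only [o.neg j u v e, hn.neg j u v e, neg_add]
  · simpa only [add_sub_cancel_right, om] using even_om (F.w.s j).l.2
  · simpa only [add_sub_cancel_right, om] using even_om (F.w.s j).r.2

theorem tok_of {n : Wt} {Λ : NmL Γ} (h : n.OK w Λ) : TOK w n := ⟨h.rod, h.eq, h.neg⟩

end Crest.Agent.X212.Ord99
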