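import Crest.Agent.X212.Nm96.Defs

/-!
# Row 212, layer G (helper99): real orders, the bilinear localisation sum, the shape of a piece

* `RW`, `co`, `TR`, `bs` (`ssum_lq`, `ssum_lb`); `th` potentials of characters (`lr_ev`, `vx_ev`, `tel`);
* `Pc w B η` non-first toric pieces, `En` (envelope `= Ioc L R`), `No` (broken arcs seen from outside);
* `Pc.path` : the sum against a path of characters.
-/

set_option autoImplicit false
noncomputable section

namespace Crest.Agent.X212.Ord99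

open Crest.Agent.X212.Rod53 hiding rho
open Crest.Agent.X212.Wd38 Crest.Agent.X212.Nm96 Finset

variable {Γ : Nm}

/-- real orders along the left (`.1`) and right (`.2`) parts of the slots -/
abbrev RW : Type := (ℤ → ℝ) × (ℤ → ℝ)

/-- integral orders -/
def co (n : Wt) : RW := (fun j => n.nl j, fun j => n.nr j)

/-- the local intersection number -/
def lr (u v : Z2) (x y x' y' : ℝ) : ℝ :=
  -(dt u v : ℝ) * (x * x' * rho v u - (x * y' + x' * y) + y * y' * rho u v)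

/-- at a point of the axis -/
def vx (w : Shp Γ) (y y' : RW) (c : ℤ) : ℝ :=
  lr (w.lf c) (w.rt c) (y.2 (c - 1)) (y.1 c) (y'.2 (c - 1)) (y'.1 c)

/-- at the virtual vertex of an arc -/
def ar (w : Shp Γ) (y y' : RW) (a : Bs) : ℝ :=
  lr (w.s a.lo).r.2 (w.s a.hi).l.2 (y.2 a.lo) (y.1 a.hi) (y'.2 a.lo) (y'.1 a.hi)

/-- the bilinear localisation sum -/
def bs (w : Shp Γ) (B : Finset Bs) (η : Bs → Bool) (s t : ℤ) (y y' : RW) : ℝ :=
  ∑ c ∈ Ioc w.l w.r with s < c ∧ c ≤ t ∧ InV B η c, vx w y y' c +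
  ∑ a ∈ B with a.arc ∧ s ≤ a.lo ∧ a.lo < t ∧ Adj B η a, (if η a then 1 else -1) * ar w y y' a

/-- toric consistency -/
structure TR (w : Shp Γ) (y : RW) : Prop where
  rod : ∀ j τ, w.l < j → j < w.r → w.s j = .rod τ → y.1 j = y.2 j
  eq : ∀ j, w.l < j → j ≤ w.r → w.lf j = w.rt j → y.2 (j - 1) = y.1 j
  neg : ∀ j, w.l < j → j ≤ w.r → w.lf j = -w.rt j → y.2 (j - 1) = -y.1 j

variable {w : Shp Γ} {B : Finset Bs} {η : Bs → Bool} {s t c c' j L R : ℤ} {x y z : RW} {a b : Bs}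

theorem ssum_lq (n : Wt) : ssum w B η s t lq n = bs w B η s t (co n) (co n) := rfl

theorem tr_co {n : Wt} : TR w (co n) ↔ TOK w n :=
  ⟨fun h => ⟨fun j τ a b c => Int.cast_injective (h.rod j τ a b c), fun j a b c => Int.cast_injective (h.eq j a b c),
    fun j a b c => Int.cast_injective ((h.neg j a b c).trans (Int.cast_neg _).symm)⟩,
   fun h => ⟨fun j τ a b c => congrArg Int.cast (h.rod j τ a b c), fun j a b c => congrArg Int.cast (h.eq j a b c),
    fun j a b c => (congrArg Int.cast (h.neg j a b c)).trans (Int.cast_neg _)⟩⟩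

theorem TR.add (h : TR w x) (h' : TR w y) : TR w (x + y) :=
  ⟨fun j τ a b c => congrArg₂ (· + ·) (h.rod j τ a b c) (h'.rod j τ a b c),
    fun j a b c => congrArg₂ (· + ·) (h.eq j a b c) (h'.eq j a b c),
    fun j a b c => (congrArg₂ (· + ·) (h.neg j a b c) (h'.neg j a b c)).trans (neg_add _ _).symm⟩

theorem TR.smul (r : ℝ) (h : TR w x) : TR w (r • x) :=
  ⟨fun j τ a b c => congrArg (r * ·) (h.rod j τ a b c), fun j a b c => congrArg (r * ·) (h.eq j a b c),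
    fun j a b c => (congrArg (r * ·) (h.neg j a b c)).trans (mul_neg _ _)⟩

theorem tr_zero : TR w 0 := ⟨fun _ _ _ _ _ => rfl, fun _ _ _ _ => rfl, fun _ _ _ _ => neg_zero.symm⟩

theorem bs_symm : bs w B η s t x y = bs w B η s t y x := by
  unfold bs vx ar lr
  congr 1 <;> exact sum_congr rfl fun _ _ => by ring

theorem bs_add : bs w B η s t (x + y) z = bs w B η s t x z + bs w B η s t y z := by
  unfold bs vx ar lr
  rw [add_add_add_comm, ← sum_add_distrib, ← sum_add_distrib]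
  congr 1 <;> exact sum_congr rfl fun _ _ => by simp only [Prod.fst_add, Prod.snd_add, Pi.add_apply]; ring

theorem bs_smul (r : ℝ) : bs w B η s t (r • x) z = r * bs w B η s t x z := by
  unfold bs vx ar lr
  rw [mul_add, mul_sum, mul_sum]
  congr 1 <;> exact sum_congr rfl fun _ _ => by
    simp only [Prod.smul_fst, Prod.smul_snd, Pi.smul_apply, smul_eq_mul]; ring

/-! ### characters -/

/-- the value of a real character -/
def ev (e : ℝ × ℝ) (v : Z2) : ℝ := e.1 * v.1 + e.2 * v.2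

/-- the potential of a character -/
def th (e : ℝ × ℝ) (u : Z2) (x : ℝ) : ℝ := (if u.2 = 0 then e.2 * u.1 * x else 0) - e.1 * x / u.2

theorem lr_ev {u v : Z2} (h : Uni u v) (e : ℝ × ℝ) (p q : ℝ) :
    lr u v p q (ev e u) (ev e v) = th e u p - th e v q := by
  have k : (dt u v : ℝ) * dt u v = 1 := by exact_mod_cast h.sq
  unfold lr rho ev th
  have d : (dt u v : ℝ) = u.1 * v.2 - u.2 * v.1 := by simp [dt]
  rw [d] at k ⊢
  by_cases hu : u.2 = 0 <;> by_cases hv : v.2 = 0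
  · simp [hu, hv] at k
  · have : (v.2 : ℝ) ≠ 0 := by exact_mod_cast hv
    have h1 : (v.2 : ℝ) * v.2 = 1 := by
      have := h.sq
      rw [dt, hu, zero_mul, sub_zero, mul_mul_mul_comm] at this
      exact_mod_cast Int.eq_one_of_mul_eq_one_left (mul_self_nonneg _) this
    simp only [hu, hv, if_true, if_false, Int.cast_zero, mul_zero, zero_mul, sub_zero, add_zero, div_zero,
      zero_div] at k ⊢
    have h2 : (u.1 : ℝ) ≠ 0 := fun e => by simp [e] at k
    field_simp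
    linear_combination (e.2 * u.1 * p * v.2) * h1 + e.1 * q * k
  · have : (u.2 : ℝ) ≠ 0 := by exact_mod_cast hu
    have h1 : (u.2 : ℝ) * u.2 = 1 := by
      have := h.sq
      rw [dt, hv, mul_zero, zero_sub, neg_mul_neg, mul_mul_mul_comm] at this
      exact_mod_cast Int.eq_one_of_mul_eq_one_right (mul_self_nonneg _) this
    simp only [hu, hv, if_true, if_false, Int.cast_zero, mul_zero, zero_sub, add_zero, div_zero,
      zero_div] at k ⊢
    have h2 : (v.1 : ℝ) ≠ 0 := fun e => by simp [e] at k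
    field_simp
    linear_combination (-e.2 * v.1 * q * u.2) * h1 - e.1 * p * k
  · have : (u.2 : ℝ) ≠ 0 := by exact_mod_cast hu
    have : (v.2 : ℝ) ≠ 0 := by exact_mod_cast hv
    simp only [hu, hv, if_false, zero_sub]
    field_simp
    linear_combination (e.1 * (u.2 * q - v.2 * p)) * k

theorem th_neg (e : ℝ × ℝ) (u : Z2) (p : ℝ) : th e (-u) (-p) = th e u p := by
  simp [th, neg_div_neg_eq]

theorem th_zero {e : ℝ × ℝ} {u : Z2} (he : e.1 = 0) (hu : u.2 ≠ 0) (p : ℝ) : th e u p = 0 := by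
  simp [th, he, hu]

theorem vx_ev (hw : w.OK) (hx : TR w x) (h1 : w.l < c) (h2 : c ≤ w.r) {e : ℝ × ℝ}
    (hl : y.2 (c - 1) = ev e (w.lf c)) (hr : y.1 c = ev e (w.rt c)) :
    vx w x y c = th e (w.lf c) (x.2 (c - 1)) - th e (w.rt c) (x.1 c) := by
  rw [vx, hl, hr]
  rcases (hw.st c h1 h2).2 with (k | k) | k
  · rw [lr, hx.eq c h1 h2 k, show w.lf c = w.rt c from k, dt_self]; simp
  · rw [lr, hx.neg c h1 h2 k, show w.lf c = -w.rt c from k, th_neg, dt_neg_left, dt_self]; simp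
  · exact lr_ev k e _ _

theorem tel {A A' : ℤ → ℝ} {p q : ℤ} (h : p < q) (H : ∀ j, p < j → j < q → A (j + 1) = A' j) :
    ∑ c ∈ Ioc p q, (A c - A' c) = A (p + 1) - A' q := by
  induction q, h using Int.leInduction with
  | base => rw [show Ioc p (p + 1) = {p + 1} by ext; simp; omega, sum_singleton]
  | succ q k ih =>
    rw [show Ioc p (q + 1) = insert (q + 1) (Ioc p q) by ext; simp; omega, sum_insert (by simp),
      ih fun j a b => H j a (by omega), H q k (by omega)]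
    ring

theorem TR.lr (hx : TR w x) {p q : ℤ} (h : w.Rg p q) (h1 : p < j) (h2 : j < q) :
    w.lf (j + 1) = w.rt j ∧ x.2 (j + 1 - 1) = x.1 j := by
  obtain ⟨τ, e⟩ := h.fr j h1 h2
  rw [Shp.lf, add_sub_cancel_right, Shp.rt, e]
  exact ⟨rfl, (hx.rod j τ (h.lo.trans_lt h1) (h2.trans_le h.hi) e).symm⟩

theorem TR.tel (hx : TR w x) {p q : ℤ} (h : w.Rg p q) (e : ℝ × ℝ) :
    ∑ c ∈ Ioc p q, (th e (w.lf c) (x.2 (c - 1)) - th e (w.rt c) (x.1 c)) =
      th e (w.s p).r.2 (x.2 p) - th e (w.s q).l.2 (x.1 q) := by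
  rw [Ord99.tel (A := fun c => th e (w.lf c) (x.2 (c - 1))) h.lt fun j a b => by
    rw [(hx.lr h a b).1, (hx.lr h a b).2], Shp.lf, add_sub_cancel_right, Shp.rt]

/-! ### pieces -/

theorem side_arc (h : a.arc) : a.side c = false ↔ a.lo < c ∧ c ≤ a.hi := by
  cases a <;> first | exact h.elim | simp [Bs.side, Bs.lo, Bs.hi]

theorem side_sl (h : ¬a.arc) : (a.side c = true ↔ a.lo < c) ∧ a.hi = a.lo := by
  cases a <;> first | exact (h trivial).elim | simp [Bs.side, Bs.lo, Bs.hi]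

theorem kind (η : Bs → Bool) (a : Bs) :
    (a.arc ∧ η a = false ∧ ∀ c, a.side c = η a ↔ a.lo < c ∧ c ≤ a.hi) ∨
    (a.arc ∧ η a = true ∧ ∀ c, a.side c = η a ↔ c ≤ a.lo ∨ a.hi < c) ∨
    (¬a.arc ∧ η a = true ∧ ∀ c, a.side c = η a ↔ a.lo < c) ∨
    (¬a.arc ∧ η a = false ∧ ∀ c, a.side c = η a ↔ c ≤ a.lo) := by
  by_cases k : a.arc <;> cases e : η a
  · exact .inl ⟨k, rfl, fun c => side_arc k⟩
  · exact .inr (.inl ⟨k, rfl, fun c => by rw [← Bool.not_eq_false, side_arc k]; omega⟩)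
  · exact .inr (.inr (.inr ⟨k, rfl, fun c => by rw [← Bool.not_eq_true, (side_sl k).1, not_lt]⟩))
  · exact .inr (.inr (.inl ⟨k, rfl, fun c => (side_sl k).1⟩))

/-- compatible toric walls that are rational homology spheres -/
structure Pw (w : Shp Γ) (B : Finset Bs) : Prop where
  hw : w.OK
  ok : ∀ a ∈ B, a.OK w ∧ (a.pin ∨ ∃ s, a = .yS s ∧ (w.s s).r.2.2 ≠ 0)
  far : ∀ a ∈ B, ∀ b ∈ B, a ≠ b → a.Far b

/-- a toric piece that is not the first one -/
structure Pc (w : Shp Γ) (B : Finset Bs) (η : Bs → Bool) : Prop extends Pw w B where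
  ne : ∃ c, w.l < c ∧ c ≤ w.r ∧ InV B η c
  nf : ¬InV B η w.l

/-- the envelope of the piece -/
def En (w : Shp Γ) (B : Finset Bs) (η : Bs → Bool) (c : ℤ) : Prop :=
  w.l < c ∧ c ≤ w.r ∧ ∀ a ∈ B, ¬(a.arc ∧ η a = true) → a.side c = η a

/-- broken arcs seen from outside -/
def No (B : Finset Bs) (η : Bs → Bool) (a : Bs) : Prop := a ∈ B ∧ a.arc ∧ η a = true ∧ Adj B η a

/-- the piece is not inside an arc -/
def Out (B : Finset Bs) (η : Bs → Bool) : Prop := ∀ a ∈ B, a.arc → η a = true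

theorem adj_iff : Adj B η a ↔ ∀ b ∈ B, b ≠ a → b.side (a.lo + 1) = η b := by
  simp only [Adj, InV, mem_erase]
  exact ⟨fun h b x y => h b ⟨y, x⟩, fun h b k => h b k.2 k.1⟩

namespace Pw
variable (P : Pw w B)
include P

theorem arc (h : a ∈ B) (k : a.arc) : w.Rg a.lo a.hi ∧ Uni (w.s a.lo).r.2 (w.s a.hi).l.2 := by
  obtain ⟨h2, h1 | ⟨s, rfl, -⟩⟩ := P.ok a h
  · cases a <;> first | exact h1.elim | exact k.elim | exact h2
  · exact k.elim

theorem sl (h : a ∈ B) (k : ¬a.arc) : w.l ≤ a.lo ∧ a.lo < w.r ∧ (w.s a.lo).r.2.2 ≠ 0 := by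
  obtain ⟨h2, h1 | ⟨s, rfl, e⟩⟩ := P.ok a h
  · cases a <;> first | exact h1.elim | exact (k trivial).elim | skip
    exact ⟨h2.1, h2.2.1, fun z => (P.hw.pr _ h2.1 h2.2.1.le).2.choose_spec.ne_zero (Prod.ext h2.2.2 z)⟩
  · exact ⟨h2.1, h2.2, e⟩

theorem bd (h : a ∈ B) : w.l ≤ a.lo ∧ a.lo ≤ a.hi ∧ a.lo < w.r ∧ a.hi ≤ w.r ∧ (a.arc → a.lo < a.hi) ∧
    (¬a.arc → a.hi = a.lo) := by
  by_cases k : a.arc
  · have r := (P.arc h k).1
    have := r.lo; have := r.lt; have := r.hi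
    exact ⟨by omega, by omega, by omega, by omega, fun _ => by omega, fun e => (e k).elim⟩
  · have := P.sl h k
    have := (side_sl (c := 0) k).2
    exact ⟨by omega, by omega, by omega, by omega, fun e => (k e).elim, fun _ => this⟩

theorem far0 (h : a ∈ B) (h' : b ∈ B) (ne : b ≠ a) : a.hi < b.lo ∨ b.hi < a.lo ∨
    (a.lo < b.lo ∧ b.hi < a.hi) ∨ (b.lo < a.lo ∧ a.hi < b.hi) := by
  have := P.far a h b h' ne.symm
  unfold Bs.Far at this
  tauto

theorem farS (h : a ∈ B) (h' : b ∈ B) (ne : b ≠ a) (k : ¬b.arc) : a.hi < b.lo ∨ b.hi < a.lo := by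
  have := P.far a h b h' ne.symm
  unfold Bs.Far at this
  tauto

theorem adj_in (h : a ∈ B) (k : Adj B η a) : InV B η (a.lo + 1) ∨ InV B η a.lo := by
  rw [adj_iff] at k
  have := P.bd h
  by_cases e : a.side (a.lo + 1) = η a
  · exact .inl fun b hb => if q : b = a then q ▸ e else k b hb q
  exact .inr fun b hb => by
    have := P.bd hb
    by_cases q : b = a
    · subst q
      rcases kind η b with ⟨x, -, H⟩ | ⟨x, -, H⟩ | ⟨x, -, H⟩ | ⟨x, -, H⟩ <;> rw [H] at e ⊢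
      · have := (P.bd h).2.2.2.2.1 x
        omega
      all_goals omega
    · have := k b hb q
      have := P.far0 h hb q
      rcases kind η b with ⟨x, -, H⟩ | ⟨x, -, H⟩ | ⟨x, -, H⟩ | ⟨x, -, H⟩ <;> rw [H] at * <;> omega

theorem pc (h : ∃ a ∈ B, Adj B η a) (nf : ¬InV B η w.l) : Pc w B η :=
  ⟨P, let ⟨a, h, k⟩ := h; have := P.bd h; (P.adj_in h k).elim (fun i => ⟨_, by omega, by omega, i⟩)
    fun i => ⟨_, lt_of_le_of_ne this.1 fun q => nf (q ▸ i), by omega, i⟩, nf⟩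

end Pw

namespace Pc
variable (P : Pc w B η)
include P

omit P in
theorem en_of (h1 : w.l < c) (h2 : c ≤ w.r) (h : InV B η c) : En w B η c := ⟨h1, h2, fun a x _ => h a x⟩

theorem en_no (h : No B η a) (h1 : a.lo < c) (h2 : c ≤ a.hi) : En w B η c ∧ ¬InV B η c := by
  obtain ⟨hB, k, e, ad⟩ := h
  have := P.bd hB
  refine ⟨⟨by omega, by omega, fun b hb x => ?_⟩, fun i => ?_⟩
  · have q : b ≠ a := fun q => x (q ▸ ⟨k, e⟩)
    have := adj_iff.1 ad b hb q
    have := P.far0 hB hb q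
    have := P.farS hB hb q
    have := P.bd hb
    rcases kind η b with ⟨y, z, H⟩ | ⟨y, z, H⟩ | ⟨y, z, H⟩ | ⟨y, z, H⟩
    · rw [H] at *; omega
    · exact (x ⟨y, z⟩).elim
    all_goals rw [H] at *; simp only [y, not_false_eq_true, forall_const] at *; omega
  · have := i a hB
    rw [e, ← Bool.not_eq_false, side_arc k] at this
    exact this ⟨h1, h2⟩

theorem no_of (h : En w B η c) (h' : ¬InV B η c) : ∃ a, No B η a ∧ a.lo < c ∧ c ≤ a.hi := by
  obtain ⟨c0, -, -, i0⟩ := P.ne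
  obtain ⟨a, ha, m⟩ := exists_min_image {a ∈ B | a.side c ≠ η a} Bs.lo (by
    simpa [InV, Finset.Nonempty] using h')
  simp only [mem_filter] at ha m
  have k : a.arc ∧ η a = true := by_contra fun x => ha.2 (h.2.2 a ha.1 x)
  have s : a.lo < c ∧ c ≤ a.hi := (side_arc k.1).1 (by simpa [k.2] using ha.2)
  have s0 : ¬(a.lo < c0 ∧ c0 ≤ a.hi) := fun x => by
    have := i0 a ha.1
    rw [(side_arc k.1).2 x, k.2] at this
    cases this
  refine ⟨a, ⟨ha.1, k.1, k.2, adj_iff.2 fun b hb q => ?_⟩, s⟩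
  have f := P.far0 ha.1 hb q
  have f' := P.farS ha.1 hb q
  have := P.bd hb
  have j := h.2.2 b hb
  have j0 := i0 b hb
  have m' := fun x => m b ⟨hb, x⟩
  rcases kind η b with ⟨y, z, H⟩ | ⟨y, z, H⟩ | ⟨y, z, H⟩ | ⟨y, z, H⟩ <;> rw [ne_eq, H] at m' <;> rw [H] at j j0 ⊢
  · have := j (by simp [z]); omega
  · omega
  · have := j (by simp [y]); have := f' y; omega
  · have := j (by simp [y]); have := f' y; omega

theorem no_far (h : No B η a) (h' : No B η b) (ne : b ≠ a) : a.hi < b.lo ∨ b.hi < a.lo := by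
  have f := P.far0 h.1 h'.1 ne
  have i := adj_iff.1 h.2.2.2 b h'.1 ne
  have i' := adj_iff.1 h'.2.2.2 a h.1 ne.symm
  rw [h'.2.2.1, ← Bool.not_eq_false, side_arc h'.2.1] at i
  rw [h.2.2.1, ← Bool.not_eq_false, side_arc h.2.1] at i'
  have := P.bd h.1; have := P.bd h'.1
  omega

theorem exists_LR : ∃ L R, L < R ∧ ∀ c, En w B η c ↔ L < c ∧ c ≤ R := by
  obtain ⟨c0, h1, h2, i⟩ := P.ne
  obtain ⟨L, a, a'⟩ := Int.exists_least_of_bdd (P := En w B η) ⟨w.l, fun z k => k.1.le⟩ ⟨c0, en_of h1 h2 i⟩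
  obtain ⟨R, b, b'⟩ := Int.exists_greatest_of_bdd (P := En w B η) ⟨w.r, fun z k => k.2.1⟩ ⟨c0, en_of h1 h2 i⟩
  refine ⟨L - 1, R, by linarith [a' R b], fun c => ⟨fun k => ⟨by linarith [a' c k], b' c k⟩, fun k =>
    ⟨by linarith [a.1, k.1], k.2.trans b.2.1, fun d hd x => ?_⟩⟩⟩
  have u := a.2.2 d hd x
  have v := b.2.2 d hd x
  rcases kind η d with ⟨y, z, H⟩ | ⟨y, z, H⟩ | ⟨y, z, H⟩ | ⟨y, z, H⟩
  · rw [H] at *; omega
  · exact (x ⟨y, z⟩).elim
  all_goals rw [H] at *; omega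

variable (hE : ∀ c, En w B η c ↔ L < c ∧ c ≤ R) (hLR : L < R)
include hE hLR

omit P in
theorem bdLR : w.l ≤ L ∧ R ≤ w.r :=
  ⟨by linarith [((hE (L + 1)).2 ⟨by omega, by omega⟩).1], ((hE R).2 ⟨hLR, le_rfl⟩).2.1⟩

theorem inn (h : a ∈ B) (k : a.arc) (e : η a = false) (ad : Adj B η a) : a.lo = L ∧ a.hi = R := by
  have := P.bd h
  have s : ∀ c, En w B η c ↔ a.lo < c ∧ c ≤ a.hi := fun c =>
    ⟨fun x => (side_arc k).1 ((x.2.2 a h (by simp [e])).trans e), fun x =>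
      ⟨by omega, by omega, fun b hb y => by
        by_cases q : b = a
        · rw [q, e]; exact (side_arc k).2 x
        have := adj_iff.1 ad b hb q
        have := P.far0 h hb q
        have := P.farS h hb q
        have := P.bd hb
        rcases kind η b with ⟨u, z, H⟩ | ⟨u, z, H⟩ | ⟨u, z, H⟩ | ⟨u, z, H⟩
        · rw [H] at *; omega
        · exact (y ⟨u, z⟩).elim
        all_goals rw [H] at *; simp only [u, not_false_eq_true, forall_const] at *; omega⟩⟩
  have := this.2.2.2.2.1 k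
  have := (s _).1 ((hE (L + 1)).2 ⟨by omega, by omega⟩)
  have := (s _).1 ((hE R).2 ⟨hLR, le_rfl⟩)
  have := (hE _).1 ((s (a.lo + 1)).2 ⟨by omega, by omega⟩)
  have := (hE _).1 ((s a.hi).2 ⟨by omega, by omega⟩)
  omega

theorem exists_inn (h : ¬Out B η) : ∃ a, a.arc ∧ a.lo = L ∧ a.hi = R ∧ a ∈ B ∧
    ∀ b, b ∈ B ∧ b.arc ∧ η b = false ∧ Adj B η b ↔ b = a := by
  obtain ⟨c0, -, -, i0⟩ := P.ne
  obtain ⟨a, ha, m⟩ := exists_max_image {a ∈ B | a.arc ∧ η a = false} Bs.lo (by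
    simpa [Out, Finset.Nonempty] using h)
  simp only [mem_filter] at ha m
  have s := (side_arc ha.2.1).1 ((i0 a ha.1).trans ha.2.2)
  have ad : Adj B η a := adj_iff.2 fun b hb q => by
    have f := P.far0 ha.1 hb q
    have f' := P.farS ha.1 hb q
    have := P.bd hb
    have j0 := i0 b hb
    have m' := fun x => m b ⟨hb, x⟩
    rcases kind η b with ⟨y, z, H⟩ | ⟨y, z, H⟩ | ⟨y, z, H⟩ | ⟨y, z, H⟩ <;> rw [H] at j0 ⊢
    · have := m' ⟨y, z⟩; omega
    · omega
    · have := f' y; omega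
    · have := f' y; omega
  have i := P.inn hE hLR ha.1 ha.2.1 ha.2.2 ad
  refine ⟨a, ha.2.1, i.1, i.2, ha.1, fun b => ⟨fun x => by_contra fun q => ?_, fun q => q ▸ ⟨ha.1, ha.2.1, ha.2.2, ad⟩⟩⟩
  have := P.inn hE hLR x.1 x.2.1 x.2.2.1 x.2.2.2
  have := P.far0 ha.1 x.1 q
  omega

theorem pL (h : Out B η) : (w.s L).r.2.2 ≠ 0 := by
  have b := bdLR hE hLR
  have e1 := (hE (L + 1)).2 ⟨by omega, by omega⟩
  obtain ⟨a, ha, k, x⟩ : ∃ a ∈ B, ¬a.arc ∧ a.side L ≠ η a := by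
    by_contra! q
    rcases b.1.eq_or_lt with u | u
    · exact P.nf fun a ha => if k : a.arc then by
        have := P.bd ha
        rw [h a ha k, ← Bool.not_eq_false, side_arc k]; omega else u ▸ q a ha k
    · exact lt_irrefl L ((hE L).1 ⟨u, by omega, fun a ha y => q a ha fun k => y ⟨k, h a ha k⟩⟩).1
  have y := e1.2.2 a ha fun z => k z.1
  have : a.lo = L := by
    rcases kind η a with ⟨u, z, H⟩ | ⟨u, z, H⟩ | ⟨u, z, H⟩ | ⟨u, z, H⟩
    exacts [(k u).elim, (k u).elim, by rw [ne_eq, H] at *; omega, by rw [ne_eq, H] at *; omega]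
  exact this ▸ (P.sl ha k).2.2

theorem pR (h : Out B η) (h' : R < w.r ∨ ¬InV B η (w.r + 1)) : R < w.r ∧ (w.s R).r.2.2 ≠ 0 := by
  have b := bdLR hE hLR
  have e1 := (hE R).2 ⟨by omega, by omega⟩
  obtain ⟨a, ha, k, x⟩ : ∃ a ∈ B, ¬a.arc ∧ a.side (R + 1) ≠ η a := by
    by_contra! q
    rcases b.2.eq_or_lt with u | u
    · exact h'.elim u.not_lt fun n => n fun a ha => if k : a.arc then by
        have := P.bd ha
        rw [h a ha k, ← Bool.not_eq_false, side_arc k]; omega else u ▸ q a ha k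
    · exact absurd ((hE (R + 1)).1 ⟨by omega, u, fun a ha y => q a ha fun k => y ⟨k, h a ha k⟩⟩).2 (by omega)
  have y := e1.2.2 a ha fun z => k z.1
  have : a.lo = R := by
    rcases kind η a with ⟨u, z, H⟩ | ⟨u, z, H⟩ | ⟨u, z, H⟩ | ⟨u, z, H⟩
    exacts [(k u).elim, (k u).elim, by rw [ne_eq, H] at *; omega, by rw [ne_eq, H] at *; omega]
  exact this ▸ (P.sl ha k).2

end Pc

end Crest.Agent.X212.Ord99
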