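import Crest.Agent.X212.Ord99.Ar
import Crest.Agent.X212.Line51.Wd3
import Crest.Agent.X212.Br55.Defs
import Crest.Agent.X212.Loc8.Rl

/-!
# Row 212, layer G (helper99): tests are curvatures of lines that are trivial off a compact set

* `rl_fam` : a line that is trivial on disjoint bands;  `K0` : the trivial context;  `exists_rl`.
-/

set_option autoImplicit false
set_option linter.unusedSectionVars false
noncomputable section
open Set Function Filter Topology Matrix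
open scoped ContDiff Manifold

namespace Crest.Agent.X212.Ord99
open M Wd38 Nm96 Cyl58 Dr59 Line51 Int54 Pj41
open Rod53 hiding Uni X rho
open Loc8 (RL)
open Cyf70 (IC)

/-- a line that is trivial on disjoint bands is trivial off a compact part of a piece -/
theorem rl_fam {X : Mf 4} [CompactSpace X.M] {κ l A : Type} [Fintype κ] [DecidableEq κ] [Fintype l] [DecidableEq l]
    [Finite A] {L : Ln X.E X.M κ} (hL : L.On X.I univ) (N : A → Band X) (η : A → Bool)
    (hd : Pairwise (Disjoint on fun a => range (N a).j)) {e : Matrix l Unit ℂ} (he : eᴴ * e = 1)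
    (h : ∀ a, ∃ m, Uni (IC (N a).Y.I) (fun q => L.p ((N a).j q)) (fun _ => e * eᴴ) m univ) :
    ∃ K f, IsCompact K ∧ K ⊆ {z | ∀ a, z ∈ (N a).wall.sd (η a)} ∧ RL X.I K f ∧
      Ex X.I {z | ∀ a, z ∈ (N a).wall.sd (η a)} (f - L.F X.I) := by
  classical
  choose m hm using h
  set V := {z | ∀ a, z ∈ (N a).wall.sd (η a)}
  have oV : IsOpen V := by
    rw [show V = _ from ofPred_forall _]
    exact isOpen_iInter_of_finite fun a => (N a).wall.op_sd _
  let K := {z | ∀ a, 1 ≤ M.pm (η a) * (N a).s z}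
  have cK : IsClosed K := by
    rw [show K = _ from ofPred_forall _]
    exact isClosed_iInter fun a => isClosed_le continuous_const (continuous_const.mul (N a).contMDiff_s.continuous)
  have oO := isOpen_iUnion fun a => (N a).oe.isOpen_range
  obtain ⟨ρ, r0, r1, -⟩ := exists_contMDiffMap_zero_one_nhds_of_isClosed (n := ⊤) X.I oO.isClosed_compl
    (isClosed_iUnion_of_finite fun a => ((N a).isCompact_slab (isCompact_Icc (a := -1) (b := 1))).isClosed)
    (disjoint_compl_left_iff_subset.2 (iUnion_mono fun a => (N a).slab_subset _))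
  obtain ⟨L', w, k1, k2, k3, -⟩ := exists_lit_fam hL (fun a => (N a).oe.isOpen_range) hd
    (q := fun _ _ => e * eᴴ) (u := fun a z => m a (ji (N a) z)) (fun a => (((hm a).mono (subset_univ _)).comp
      (mp_ji (N a) univ) |>.mono (by rintro _ ⟨q, rfl⟩; exact (N a).j_mem_slab.2 trivial)).congr_p
      (by rintro _ ⟨q, rfl⟩; simp only [ji_j]) fun _ _ => rfl) (ρ := ρ) (fun x => ρ.contMDiff x)
    (fun x hx => by_contra fun k => notMem_tsupport_iff_eventuallyEq.2 (r0.filter_mono (nhds_le_nhdsSet k)) hx)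
    (em_iso Sum.inl_injective) (em_iso Sum.inr_injective) (em_orth fun _ _ => Sum.inl_ne_inr)
  have i0 := (Sec.piso_unit he).trans (piso_cj (em_iso (l := κ ⊕ l) Sum.inr_injective) (Sec.piso_unit he).prj_tgt)
  set p₀ := Line51.em (Sum.inr : l → κ ⊕ l) * (e * eᴴ) * (Line51.em (Sum.inr : l → κ ⊕ l))ᴴ
  let p : X.M → Matrix (κ ⊕ l) (κ ⊕ l) ℂ := fun z => if z ∈ V then L'.p z else p₀
  have z : ∀ x, x ∉ K → p x = p₀ := fun x hx => by
    refine ite_eq_right_iff.2 fun k => ?_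
    obtain ⟨a, ha⟩ := not_forall.1 hx
    have h1 : |(N a).s x| < 1 := by
      have := abs_of_pos ((N a).mem_sd.1 (k a))
      rw [abs_mul, abs_pm, one_mul] at this
      exact this.trans_lt (not_le.1 ha)
    obtain ⟨y, hy⟩ := (N a).exists_of_abs_s_lt (h1.trans (by norm_num))
    exact (k3 a x ⟨_, hy⟩ (r1.self_of_nhdsSet _ (mem_iUnion.2 ⟨a, hy ▸ (N a).j_mem_slab.2 (abs_le.1 h1.le)⟩))).2
  have o1 : (⟨p, 0⟩ : Ln X.E X.M _).On X.I V :=
    Ln.On.congr (L := ⟨L'.p, 0⟩) oV ⟨fun x _ => k1.sm x trivial, fun x _ => k1.prj x trivial,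
      fun x _ => k1.tr x trivial, Sm.zero, Dg.zero⟩ (fun _ k => if_pos k) fun _ _ => rfl
  have t0 := i0.trace_eq.symm.trans (by simp : (1 : Matrix Unit Unit ℂ).trace = 1)
  have s : K ⊆ V := fun x k a => (N a).mem_sd.2 (one_pos.trans_le (k a))
  exact ⟨K, _, cK.isCompact, s, ⟨_, _, ⟨p, 0⟩, _, Ln.on_of_loc fun x _ => (Classical.em (x ∈ K)).elim
      (fun k => ⟨V, s k, o1⟩) fun k => ⟨Kᶜ, k, (Loc8.on_const i0.prj_tgt t0 Kᶜ).congr cK.isOpen_compl z fun _ _ => rfl⟩,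
    i0.prj_tgt, t0, fun x k => ⟨z x k, rfl⟩, rfl⟩,
    Uni.ex_F oV ((k2.toUni.mono (subset_univ _)).congr_p (fun _ _ => rfl) fun _ k => if_pos k)
      (hL.mono (subset_univ _)) o1⟩

variable {Γ : Nm} (C : Cx Γ)

/-- the order is a multiple of the order of the core -/
def Dv (τ : Γ.ι × Z2) (i : ℤ) : Prop := (sa (fd τ.2)).2 ∣ i

/-- names of trivial lines -/
def Λ0 (Γ : Nm) : NmL Γ := ⟨fun J i j => Dv (Γ.src J) i ∧ Dv (Γ.tgt J) j, 0⟩

theorem exists_S (τ : Γ.ι × Z2) (i : ℤ) : ∃ S : Sec E3 (mF C.kd τ).M K3,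
    SF (C.F τ rfl) (uni_s (fd τ.2)) i S ∧ (Dv τ i → S.L.p = fun _ => e0 * e0ᴴ) := by
  by_cases h : Dv τ i
  · obtain ⟨k, rfl⟩ := h
    exact ⟨_, sf_secK (k := k) he0 (ang_KD _) (by simp [dot, mul_comm]), fun _ => rfl⟩
  · exact (exists_SF _ _ i).imp fun _ k => ⟨k, fun e => (h e).elim⟩

theorem uni_e0 {E H W : Type} [NormedAddCommGroup E] [NormedSpace ℝ E] [TopologicalSpace H]
    {J : ModelWithCorners ℝ E H} [TopologicalSpace W] [ChartedSpace H W] (U : Set W) :
    Uni J (fun _ => e0 * e0ᴴ) (fun _ => e0 * e0ᴴ) (fun _ => e0 * e0ᴴ) U :=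
  ⟨fun _ _ => MSm.const _, fun _ _ => (Sec.piso_unit he0).prj_tgt.refl⟩

/-- the trivial context -/
def K0 : LCx C (Λ0 Γ) where
  S τ i := (exists_S C τ i).choose
  sf τ i := (exists_S C τ i).choose_spec.1
  u _ _ _ _ := e0 * e0ᴴ
  hu J i j h := by
    rw [(exists_S C _ i).choose_spec.2 h.1, (exists_S C _ j).choose_spec.2 h.2]
    exact uni_e0 _
  S0 := .cst univ e0 1
  ok0 := Sec.ok_cst isOpen_univ dense_univ he0 fun _ _ => contMDiffAt_const
  m0 _ := e0 * e0ᴴ
  hm0 := by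
    exact (uni_e0 _).congr_p (fun _ _ => rfl) fun _ _ => congrFun ((exists_S C _ _).choose_spec.2 (dvd_zero _)) _
  θ := 1
  hθ _ := contMDiffAt_const

variable {C} {w : Shp Γ} {hw : w.OK} {X : TP V4} (R : Rz C hw X) {B : Finset Bs} {η : Bs → Bool} {n : Wt}

theorem pc_eq (h : ∀ a ∈ B, a.OK w) :
    Br55.pc R B η = {z | ∀ a : B, z ∈ (R.nk a (h _ a.2)).band.wall.sd (η a)} := by
  simp only [Nk.band_sd, Sid48.nk_S, Subtype.forall, Br55.pc]

/-- **lines of the trivial context are trivial off a compact part of a piece** -/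
theorem exists_rl (P : Pw w B) (W : WL (K0 C) R n K3) (h : ∀ s, .yS s ∈ B → (w.s s).r.2.2 ∣ n.nr s) :
    ∃ K f, IsCompact K ∧ K ⊆ Br55.pc R B η ∧ RL X.mf.I K f ∧
      Ex X.mf.I (Br55.pc R B η) (f - Ln.F X.mf.I ⟨W.p, 0⟩) := by
  have := R.cpt
  rw [pc_eq R fun a k => (P.ok a k).1]
  refine rl_fam (X := X.mf) W.ln _ _ (fun a b k => ?_) he0 fun ⟨a, k⟩ => ?_
  · exact (R.bd_far (P.far _ a.2 _ b.2 (Subtype.coe_ne_coe.2 k))).mono (R.spec_nk _ _).b.le (R.spec_nk _ _).b.le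
  obtain ⟨m, hm⟩ := exists_isMk (P.ok a k).1 [] (by simp) W
  refine ⟨m, hm.uni.congr_p (fun _ _ => rfl) fun q _ => ?_⟩
  obtain ⟨o, e | ⟨s, rfl, -⟩⟩ := P.ok a k
  · cases a <;> first | exact e.elim | rfl
  · refine (congrFun ((exists_S C _ _).choose_spec.2 ?_) _).symm
    rw [Dv, sa_fd (hw.pr s o.1 o.2.le).2]
    exact h s k

variable {p q : ℤ} {d : ℤ → ℤ}

theorem Tst.ok (T : Tst w B η p q d) (hw : w.OK) (hc : Γ.cap.2.2 = 0) : (pw w (pe w p q d)).OK w (Λ0 Γ) := by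
  have r := T.rg
  have t := tok_pw (d := d) r
  have := r.lo; have := r.lt; have := r.hi
  have z : ∀ j ≤ p, ∀ v, zv (pe w p q d j) v = v.2 * ∑ k ∈ Finset.Icc p q, d k * (w.bw p q k).1 := fun j h v => by
    rw [pe_le h, T.mer, zv, neg_zero, zero_mul, zero_add, mul_comm]
  have z' : ∀ j, q < j → ∀ v, zv (pe w p q d j) v = 0 := fun j h v => by simp [pe_gt h, zv]
  refine ⟨?_, ?_, t.rod, fun j J h1 h2 e => ?_, t.eq, t.neg⟩
  · rw [pw_r r (by omega), z _ r.lo, hw.lr, hc, zero_mul]; rfl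
  · rw [pw_l r (by omega), z' _ (by omega)]; rfl
  have k := hw.pr j h1.le h2.le
  rw [e] at k
  show Dv (Sl.jn J).l _ ∧ Dv (Sl.jn J).r _
  rw [Dv, Dv, sa_fd k.1, sa_fd k.2]
  rcases le_or_gt j p with u | u
  · rw [pw_r r (by omega), z j u, show (pw w (pe w p q d)).nl j = _ from z j u _, Shp.rt, e]
    exact ⟨dvd_mul_right _ _, dvd_mul_right _ _⟩
  · have : q ≤ j := le_of_not_gt fun v => Shp.rod_iff.1 (r.fr j u v) J e
    rw [pw_l r u, z' _ (by omega), show (pw w (pe w p q d)).nr j = _ from z' _ (by omega) _]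
    exact ⟨dvd_zero _, dvd_zero _⟩

theorem Tst.dvd (T : Tst w B η p q d) {s : ℤ} (h : .yS s ∈ B) : (w.s s).r.2.2 ∣ (pw w (pe w p q d)).nr s := by
  have r := T.rg
  have := r.lt
  have h1 := (T.en (p + 1) (by omega) (by omega)).2.2 _ h fun k => k.1
  have h2 := (T.en q this le_rfl).2.2 _ h fun k => k.1
  rcases le_or_gt s p with u | u
  · rw [pw_r r (by omega), pe_le u, T.mer, zv, neg_zero, zero_mul, zero_add]
    exact dvd_mul_left _ _
  · have : ¬s < q := fun k => by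
      rw [← h2] at h1
      simp [Bs.side, k] at h1
      omega
    simp [pw, pe_gt (show q < s + 1 by omega), zv]

end Crest.Agent.X212.Ord99
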