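import Crest.Agent.X212.Ord99.Ln
import Crest.Agent.X212.Loc8.HgS
import Crest.Agent.X212.Rob53.Hz
import Crest.Agent.X212.Dr59.NbL

/-!
# Row 212, layer G (helper99): BR-ORD

* `hz_bn` : frozen slices;  `exists_win` : windows;  `abS`.
-/

set_option autoImplicit false
set_option linter.unusedSectionVars false
noncomputable section
open Set Function Filter Topology Matrix
open scoped ContDiff Manifold
open Crest.Agent.R208.F (Ext)

namespace Crest.Agent.X212.Ord99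
open M Wd38 Nm96 Cyl58 Dr59 Line51 Int54 Br55
open Rod53 hiding Uni X rho
open Loc8 (RL Win Cl2 qO)
open Num57 (isq)
open Cyf70 (IC)

section Q
variable {X : Mf 4} {o a a' b b' v f g : X.M → Ext X.E} {U K O : Set X.M} {r r' ε ε' k : ℝ}

variable (X) in
/-- `r` is the intersection number of `a` and `b` on `U` -/
def Iq (o : X.M → Ext X.E) (U : Set X.M) (a b : X.M → Ext X.E) (r : ℝ) : Prop :=
  ∃ (ι : Type) (_ : Fintype ι) (_ : DecidableEq ι), ∃ K e, ∃ G : Matrix ι ι ℝ,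
    Lat X.I o U K e G ∧ isq X.I o e G a b = r

theorem Iq.coh (h : Iq X o U a b r) (ha : Sm X.I U a) (ha' : Sm X.I U a') (hb : Sm X.I U b) (hb' : Sm X.I U b')
    (e : Ex X.I U (a' - a)) (e' : Ex X.I U (b' - b)) : Iq X o U a' b' r :=
  let ⟨ι, _, _, K, f, G, l, q⟩ := h
  ⟨ι, _, _, K, f, G, l, (Num57.isq_coh l ha' ha hb' hb e e').trans q⟩

theorem Iq.ip (h : Iq X o U a b r) (ha : Cl X.I 2 U a) (hb : Cs X.I 2 U b) : ip X.I o a b = r :=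
  let ⟨_, _, _, _, _, _, l, q⟩ := h
  (l.ip_eq ha hb).trans q

variable {Φ : X.M ≃ₘ^∞⟮X.I, X.I⟯ X.M} (hΦ : Orx52.Pos X.I X.I Φ univ o o)
include hΦ

theorem Iq.push (h : Iq X o U (pm X.I X.I Φ a) (pm X.I X.I Φ b) r) : Iq X o (Φ '' U) a b r :=
  let ⟨ι, _, _, _, _, G, l, q⟩ := h
  have s := (Orx52.same_symm hΦ).mono (subset_univ _)
  ⟨ι, _, _, _, _, G, l.push Φ.toPartialDiffeomorph (subset_univ _) l.ori s, by
    simp only [isq, fun i c => (l.cs i).ip_psh Φ.toPartialDiffeomorph (subset_univ _) l.ori l.ori s c]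
    exact q⟩

variable {A κ lam l : Type} [Fintype A] [Fintype κ] [Fintype lam] [DecidableEq lam] [Fintype l] {M : Mark X A κ}
  {N : ML M lam} {π ρ : Reg A} {fz : Set A} {E0 : Set (X.M → Ext X.E)} (ho : M.o = o)
  (H : Cl2 N π fz O E0 ε ε' v k) (hU : Φ '' U ⊆ O) (hb : Cl X.I 2 univ b) (e : Ex X.I U (pm X.I X.I Φ v - b))
include ho H hU hb e

theorem cls_iq (h : Iq X o U b b r) : Iq X M.o (Φ '' U) v v r :=
  have s := (H.cl.pm (.of_contMDiff Φ.contMDiff (mapsTo_iff_image_subset.2 hU))).sm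
  have t := hb.sm.mono (subset_univ U)
  ho ▸ (h.coh t s t s e e).push hΦ

theorem cls_chr {p : X.M → Matrix l l ℂ} {u} (hp : (⟨p, 0⟩ : Ln X.E X.M l).On X.I univ)
    (hu : Uni X.I p (fun z => N.p (Φ z)) u univ) (hK : IsCompact K) (hK' : K ⊆ U) (hf : RL X.I K f)
    (hg : Cl X.I 2 univ g) (e' : Ex X.I U (f - g)) (h : Iq X o U (Ln.F X.I ⟨p, 0⟩ + b) g r) (h' : Iq X o U g g r') :
    ∃ n : ℤ, r + r' = 2 * n * (2 * Real.pi) ^ 2 := by
  subst ho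
  have c := (hf.cs hK).mono hK'
  have m : Mp X.I X.I univ univ Φ := .of_contMDiff Φ.contMDiff (mapsTo_univ _ _)
  have s := (Orx52.same_symm hΦ).mono (subset_univ U)
  have q := (N.ok.pull m).congr (K := ⟨fun z => N.p (Φ z), 0⟩) isOpen_univ (fun _ _ => rfl)
    fun x _ => (congrFun (pm_zero _) x).symm
  have c1 := (H.cl.pm (.of_contMDiff Φ.contMDiff (mapsTo_iff_image_subset.2 hU))).add
    (((N.ok.cl_F isOpen_univ).pm m).mono (subset_univ U))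
  have t := hg.sm.mono (subset_univ U)
  have x : Ex X.I U (pm X.I X.I Φ v + pm X.I X.I Φ (Ln.F X.I ⟨N.p, 0⟩) - (Ln.F X.I ⟨p, 0⟩ + b)) :=
    (e.add ((hu.ex_F (L := ⟨p, 0⟩) (L' := ⟨_, 0⟩) isOpen_univ hp q).mono (subset_univ U))).congr fun x _ => by
      simp only [Pi.add_apply, Pi.sub_apply]
      rw [← N.ok.F_pull isOpen_univ isOpen_univ m trivial, ← (N.ok.pull m).F_congr (K := ⟨fun z => N.p (Φ z), 0⟩)
        isOpen_univ (fun _ _ => rfl) (fun x _ => (congrFun (pm_zero _) x).symm) trivial]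
      abel
  have ps := c.ip_psh Φ.toPartialDiffeomorph (subset_univ _) M.ori M.ori s
  refine (H.chr _ _ (hK.image Φ.continuous) ((image_mono hK').trans hU)
    (hf.psh Φ.toPartialDiffeomorph hK (subset_univ _))).imp fun n hn => Eq.trans ?_ hn
  rw [ps, ps, c.ip_congr (c' := f) fun y _ => pm_psh Φ.toPartialDiffeomorph trivial f,
    (h'.coh t (c.on U).sm t (c.on U).sm e' e').ip (c.on U) c, pm_add, add_comm (pm _ _ _ _),
    ← (h.coh (((hp.cl_F isOpen_univ).add hb).sm.mono (subset_univ U)) c1.sm t (c.on U).sm x e').ip c1 c]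
  rfl

end Q

variable {Γ : Nm} {C : Cx Γ}

section R
variable {w : Shp Γ} {hw : w.OK} {X : TP V4} (R : Rz C hw X) {B : Finset Bs} {η : Bs → Bool}

theorem iq_pc (hJ : JQ Γ) (P : Pc w B η) (h : ¬InV B η (w.r + 1)) {a b y z} (ha : Cl X.mf.I 2 univ a)
    (hb : Cl X.mf.I 2 univ b) (k : Dr59.Ord R a y) (k' : Dr59.Ord R b z) :
    Iq X.mf (-R.O) (pc R B η) a b ((2 * Real.pi) ^ 2 * bt w B η y z) := iq_lat R hJ P h ⟨ha, k⟩ ⟨hb, k'⟩

theorem pc_wp (P : Pw w B) (h : ¬InV B η (w.r + 1)) : pc R B η ⊆ Pi52.wp R := fun z hz => by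
  simp only [InV, not_forall] at h
  obtain ⟨a, k, h⟩ := h
  have b := P.bd k
  have := hz a k
  rw [Sid48.side_hi b.2.1 (by omega), eq_comm, Bool.not_eq_true] at h
  rw [h] at this
  exact (Sid48.Z_time R (Sid48.Z_mono R a Iio_subset_Iic_self this) le_rfl).2.trans_lt (by
    linarith [Sid48.cast_le b.2.2.2.1])

theorem hz_bn {a : Wl} (h : a.b.OK w) {s : ℤ} (e : a.b = .yS s) (p : (w.s s).r.2.2 ≠ 0) :
    HZ X.mf.I 2 (R.bn a h).wall.band := by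
  have k : HZ (R.bn a h).Y.I 2 (univ : Set (R.bn a h).Y.M) := by
    obtain ⟨b, l⟩ := a
    obtain rfl : b = _ := e
    exact (Rob53.dr_of (Orx52.ori_oS (C.kd (w.s s).r.1).toTube) (hz_sphere (d := 3) (k := 0) (by simp)) (hz_sphere (d := 3) (k := 1) (by simp))
      (ang_KD _) one_ne_zero).fill2 (C.F (w.s s).r rfl) (uni_s _) (by
        rw [sa_fd (hw.pr s h.1 h.2.le).2]; simpa [dot] using p)
  have := (hz_oe (R.bn a h).oe.loc (R.bn a h).oe.inj isOpen_univ).2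
    (univ_prod_univ ▸ k.prod_convex isOpen_univ isOpen_univ convex_univ)
  rwa [image_univ] at this

end R

variable {κ lam : Type} [Fintype κ] [Fintype lam] [DecidableEq lam] {G : Tab C.kd κ} {P : Pm Γ} {L : LP C G P lam}
  {D : Dt Γ} {h : D.OK P} {μ : ℤ × ℤ} {i : D.L} {σ c : Finset D.A} {π : Reg D.A} {n : Wt} {η η' : Bs → Bool}
  {B' : Finset Bs} (Q : Pres L h μ i c π n η) (hS : (L.scn h μ).OK) (hσ : σ ∈ (L.scn h μ).K i) (hc : c ⊆ σ)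
  (hπ : (L.scn h μ).M.sys.Piece (↑c : Set D.A) π)
include Q hS hσ hc hπ

/-- **windows** -/
theorem exists_win (S : Sub D.F (c.image fun a => a.1.b) η B' η') {v}
    (hv : Cl (L.scn h μ).X.I 2 (qO Q) v) : ∃ ρ, Win (L.scn h μ).M π (L.scn h μ).fz (qO Q) v ρ ∧
      (L.scn h μ).M.sys.U ρ = Q.Φ '' pc (C.rz h.h0.w) B' η' := by
  have := (L.scn h μ).M.con
  let τ : Set D.A := {a | (a ∈ c ∨ IsL D.F.fz a.1) ∧ a.1.b ∈ B'}
  have C0 : (L.scn h μ).M.sys.Cell {a | a ∈ c ∨ IsL D.F.fz a.1} := (hS.cell i σ hσ).1.mono fun a k =>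
    k.imp (@hc a) fun k => Finset.mem_coe.2 (Finset.mem_filter.2 ⟨Finset.mem_univ _, k⟩)
  have C1 : (L.scn h μ).M.sys.Cell τ := C0.mono fun a k => k.1
  have T := Q.trc.mono (τ := τ) fun a k => k.1.imp_right fun k => ⟨k.1, Finset.mem_union_left _ k.2⟩
  obtain ⟨c0, h1, h2, i0⟩ := S.pc.ne
  obtain ⟨z, hz⟩ := Sid48.exists_pt (C.rz h.h0.w) (c := c0) h1.le (h2.trans (Int.le_add_one le_rfl))
  have sd : ∀ y ∈ pc (C.rz h.h0.w) B' η', ∀ a ∈ τ, Q.Φ y ∈ ((L.scn h μ).M.sys.w a).sd (η' a.1.b) :=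
    fun y hy a k => (T.sd a k _ y).2 (hy _ k.2)
  have z' := sd z fun a k => i0 a k ▸ hz a (S.pc.ok a k).1
  obtain ⟨ρ, r, hr⟩ := Sys.exists_piece C1 (x := Q.Φ z) fun e =>
    let ⟨a, ha, e⟩ := mem_iUnion₂.1 e; e _ (z' a ha)
  have e : (L.scn h μ).M.sys.U ρ = Q.Φ '' pc (C.rz h.h0.w) B' η' := by
    refine Subset.antisymm (fun x hx => ?_) ?_
    · obtain ⟨y, rfl⟩ := Q.Φ.surjective x
      refine ⟨y, fun b k => ?_, rfl⟩
      obtain ⟨a, ha, rfl⟩ : ∃ a ∈ τ, a.1.b = b := (S.cut b k).elim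
        (fun u => let ⟨a, u, e⟩ := Finset.mem_image.1 u; ⟨a, ⟨.inl u, e ▸ k⟩, e⟩)
        fun ⟨s, e, u⟩ => ⟨⟨b, h.fz b (e ▸ u.1)⟩, ⟨.inr ⟨rfl, e ▸ u.1⟩, k⟩, rfl⟩
      obtain ⟨s, hs⟩ := r.side C1 ha
      exact (T.sd a ha _ y).1 (Wall.sd_inj _ (hs hr) (z' a ha) ▸ hs hx)
    · rintro _ ⟨y, hy, rfl⟩ a s k
      have ha := r.bd_subset (Sys.mem_bd_of k)
      exact Wall.sd_inj _ (z' a ha) (hr a s k) ▸ sd y hy a ha
  have s1 : pc (C.rz h.h0.w) B' η' ⊆ pc (C.rz h.h0.w) (c.image fun a => a.1.b) η :=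
    fun y hy b k => S.eq b k ▸ hy b (S.sub k)
  refine ⟨ρ, ⟨r.toIsReg, e ▸ image_mono (subset_inter s1 (pc_wp _ S.pc.toPw S.nl)), fun a s k => ?_⟩, e⟩
  have ha := r.bd_subset (Sys.mem_bd_of k)
  obtain ⟨x, hx⟩ := ((L.scn h μ).M.sys.w a).ne s
  have hx' : x ∈ (L.scn h μ).M.sys.U π := Q.U ▸ image_mono s1 (e ▸ r.adj a s k hx)
  refine (em (a ∈ c)).imp (fun u => hπ.eq_some (C0.mono fun _ => .inl) u hx' hx) fun u => ?_
  have f := ha.1.resolve_left u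
  obtain ⟨t, et, ht⟩ := (S.cut _ ha.2).resolve_left fun k => by
    obtain ⟨t, et⟩ := (h.ok.fz _ f.2).2
    exact (et ▸ (Q.tp.ok _ k).2 :)
  refine ⟨Finset.mem_coe.2 (Finset.mem_filter.2 ⟨Finset.mem_univ _, f⟩),
    hz_bn _ (h.ad _ a.2).1.1 et ht.2 _ (hv.mono fun y hy => ?_)⟩
  obtain ⟨y', k', rfl⟩ := Q.U.ge fun a' s' k' => Wall.band_subset (C0 (.inl (hπ.bd_subset (Sys.mem_bd_of k'))) ha.1
    (ne_of_mem_of_not_mem (hπ.bd_subset (Sys.mem_bd_of k')) u)) hx.1 (hx' a' s' k') hy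
  exact ⟨y', ⟨k', Pi52.II_wp _ (Sid48.OK_hi (T.ok a ha)).2 ((C.rz h.h0.w).bd_II ((T.bd a ha y').1 hy))⟩, rfl⟩

omit Q hS hσ hc hπ in
variable (L) in
/-- **BR-ORD** -/
theorem abS (hc : Γ.cap.2.2 = 0) : AbS L := by
  intro D h μ i σ c c₀ π n η k₀ hS hσ cl hcσ _ hπ hπ₀ Q' hf
  let Q := Q'.toPres
  obtain ⟨δ, d, H⟩ := abC L.hJ h.ok
  obtain ⟨b, hb, ad⟩ := Q.tp.ne.resolve_left fun e => hf fun a k => absurd (e ▸ k) (Finset.notMem_empty _)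
  have W : Pw D.F.w _ := ⟨h.ok.w, fun a k => (Q.tp.ok a k).imp_right .inl, Q.tp.far⟩
  have p2 : 1 < (2 * Real.pi) ^ 2 := one_lt_pow₀ (by linarith [Real.pi_gt_three]) two_ne_zero
  refine Brk99.ab_of Loc8.neck (Geo48.xi κ lam) hS hσ hπ₀ (fun a k => Loc8.q_pin Q a (hπ.bd_subset k))
    (Loc8.q_top Q hπ hf).1 (Loc8.qO_sub Q) (Loc8.q_out Q' cl hcσ hf) finite_empty (fun _ k => k.elim)
    (lt_min one_pos d) (fun _ => .inl) fun k K => .inr (H _ η n k (W.pc ⟨b, hb, ad⟩ hf) Q.tp.fz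
      ⟨Q.W.ok.rod, Q.W.ok.eq, Q.W.ok.neg⟩ (K 1 one_pos).choose_spec.pos fun ε e0 B' η' S => ?_)
  obtain ⟨v, K⟩ := K ε e0
  have sb : ∀ {B' η'}, Sub D.F (c.image fun a => a.1.b) η B' η' → Q.Φ '' pc (C.rz h.h0.w) B' η' ⊆ _ := fun S =>
    let ⟨_, k, e⟩ := exists_win Q hS hσ hcσ hπ S K.cl; e ▸ k.sub
  obtain ⟨b, y, cb, e, ty, -, oy⟩ := ex_ord (C.rz h.h0.w) S.pc
    (K.cl.pm (.of_contMDiff Q.Φ.contMDiff (mapsTo_iff_image_subset.2 (sb S))))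
  have tn : TR D.F.w (co n) := tr_co.2 ⟨Q.W.ok.rod, Q.W.ok.eq, Q.W.ok.neg⟩
  have iq : ∀ {B'' η''}, Sub D.F B' η' B'' η'' → Iq _ _ _ v v ((2 * Real.pi) ^ 2 * bt D.F.w B'' η'' y y) := fun S' =>
    cls_iq Q.pos.neg rfl K (sb (S.trans S')) cb (e.mono fun z hz a k => S'.eq a k ▸ hz a (S'.sub k))
      (iq_pc _ L.hJ S'.pc S'.nl cb cb oy oy)
  refine ⟨y, ty, S.pc.dual L.hJ (tn.add ty) fun p q d T => ?_, fun e => ?_, fun B'' η'' S' => ?_⟩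
  · obtain ⟨W'⟩ := exists_WL (K0 C) (C.rz h.h0.w) (T.ok h.ok.w hc)
    obtain ⟨K', f, k1, k2, k3, k4⟩ := exists_rl _ S.pc.toPw W' fun _ => T.dvd
    have c1 := Q.W.ln.cl_F isOpen_univ
    have c2 := W'.ln.cl_F isOpen_univ
    refine (cls_chr Q.pos.neg rfl K (sb S) cb e Q.W.ln Q.uni k1 k2 k3 c2 k4
      (iq_pc _ L.hJ S.pc S.nl (c1.add cb) c2 ((ord_line Q.W).add oy c1 cb) (ord_line W'))
      (iq_pc _ L.hJ S.pc S.nl c2 c2 (ord_line W') (ord_line W'))).imp fun m hm => ?_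
    exact mul_left_cancel₀ (one_pos.trans p2).ne' ((mul_add _ _ _).trans (hm.trans (mul_comm _ _)))
  · subst e
    have u : pc (C.rz h.h0.w) _ η' = pc (C.rz h.h0.w) _ η :=
      Set.ext fun z => forall₂_congr fun a k => by rw [S.eq a k]
    obtain ⟨ι, _, _, K', f, G, l, q⟩ := iq (sub_refl S.pc S.nl)
    rw [u, Q.U] at l
    refine le_of_eq_of_le ?_ (K.lev (Q.U ▸ u ▸ sb S) ι K' f G l)
    rw [q, mul_comm 4, mul_div_mul_left _ _ (one_pos.trans p2).ne']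
  · obtain ⟨ρ, r, u⟩ := exists_win Q hS hσ hcσ hπ (S.trans S') K.cl
    obtain ⟨ι, _, _, K', f, G, l, q⟩ := iq S'
    obtain ⟨k1, k2⟩ := K.loc ρ r ι K' f G (u ▸ l)
    rw [q] at k1 k2
    refine ⟨lt_of_not_ge fun j => ?_, le_trans ?_ k2⟩
    · nlinarith [min_le_right 1 δ]
    · rw [← mul_neg, mul_comm 4, mul_div_mul_left _ _ (one_pos.trans p2).ne']
      linarith [min_le_left 1 δ]

end Crest.Agent.X212.Ord99
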